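import Vale.Agent.P283B.MONO.Va1

/-!
# P283B, block MONO: towers (GAUSS, TW, IND), approximation (DIR), embeddings (FINE, RAM)
-/

open Set MvPolynomial

noncomputable section

namespace Vale.Agent.P283B.Mono

variable {Ω : Type} [Field Ω] {w : AbsoluteValue Ω ℝ} {E : Subfield Ω} {e : ℕ}

theorem lv_zero (u : Fin (e + 1) → Ω) : Lv E u 0 = acl E (range (Fin.tail u)) := by
  unfold Lv
  congr 1
  ext x
  constructor
  · rintro ⟨i, hi, rfl⟩
    obtain ⟨j, rfl⟩ := Fin.exists_succ_eq.2 (ne_of_gt hi)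
    exact ⟨j, rfl⟩
  · rintro ⟨j, rfl⟩
    exact ⟨j.succ, j.succ_pos, rfl⟩

theorem lv_succ (u : Fin (e + 1) → Ω) (j : Fin e) : Lv E u j.succ = Lv E (Fin.tail u) j := by
  unfold Lv
  congr 1
  ext x
  constructor
  · rintro ⟨i, hi, rfl⟩
    obtain ⟨l, rfl⟩ := Fin.exists_succ_eq.2 (ne_of_gt (j.succ_pos.trans hi))
    exact ⟨l, Fin.succ_lt_succ_iff.1 hi, rfl⟩
  · rintro ⟨l, hl, rfl⟩
    exact ⟨l.succ, Fin.succ_lt_succ_iff.2 hl, rfl⟩

theorem lv_cl (u : Fin e → Ω) (j : Fin e) : Cl (Lv E u j) := acl_cl _ _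

theorem le_lv (u : Fin e → Ω) (j : Fin e) : E ≤ Lv E u j := le_acl _ _

theorem lv_le (u : Fin e → Ω) (j : Fin e) : Lv E u j ≤ acl E (range u) :=
  acl_le (acl_cl _ _) (le_acl _ _) ((image_subset_range _ _).trans (sub_acl _ _))

theorem Tw.tail {u : Fin (e + 1) → Ω} (h : Tw w E u) : Tw w E (Fin.tail u) := fun j =>
  lv_succ u j ▸ h j.succ

theorem Tri.tail {u η γ : Fin (e + 1) → Ω} (h : Tri E u η γ) :
    Tri E (Fin.tail u) (Fin.tail η) (Fin.tail γ) :=
  ⟨fun j => h.mem j.succ, fun j => h.ne j.succ, fun j => lv_succ u j ▸ h.cen j.succ⟩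

theorem Tri.cons {u : Fin (e + 1) → Ω} {η γ : Fin e → Ω} (h : Tri E (Fin.tail u) η γ) {α c : Ω}
    (hα : α ∈ Lv E u 0) (hc : c ∈ E) (c0 : c ≠ 0) :
    Tri E u (Fin.cons (α + c * u 0) η) (Fin.cons c γ) := by
  refine ⟨fun j => ?_, fun j => ?_, fun j => ?_⟩ <;> refine j.cases ?_ fun j => ?_
  · exact hc
  · exact h.mem j
  · exact c0
  · exact h.ne j
  · simpa using hα
  · rw [lv_succ]
    exact h.cen j

theorem Tri.mem_acl {u η γ : Fin e → Ω} (h : Tri E u η γ) (j : Fin e) : η j ∈ acl E (range u) := by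
  have := add_mem (lv_le u j (h.cen j))
    (mul_mem (le_acl E _ (h.mem j)) (sub_acl E (range u) ⟨j, rfl⟩))
  rwa [sub_add_cancel] at this

theorem Tri.acl {u η γ : Fin e → Ω} (h : Tri E u η γ) : acl E (range η) = acl E (range u) := by
  induction e with
  | zero => rw [Subsingleton.elim η u]
  | succ e ih =>
    refine acl_eq (range_subset_iff.2 h.mem_acl) (range_subset_iff.2 fun j => ?_)
    have le : Lv E u 0 ≤ Mono.acl E (range η) := by
      rw [lv_zero, ← ih h.tail, ← lv_zero]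
      exact lv_le η 0
    refine j.cases ?_ fun j => le (lv_zero (E := E) u ▸ sub_acl E _ ⟨j, rfl⟩)
    have := div_mem (sub_mem (sub_acl E (range η) ⟨0, rfl⟩) (le (h.cen 0))) (le_acl E _ (h.mem 0))
    rwa [sub_sub_cancel, mul_div_cancel_left₀ _ (h.ne 0)] at this

theorem Tri.lv {u η γ : Fin e → Ω} (h : Tri E u η γ) (j : Fin e) : Lv E η j = Lv E u j := by
  induction e with
  | zero => exact j.elim0
  | succ e ih =>
    refine j.cases ?_ fun j => ?_
    · rw [lv_zero, lv_zero, h.tail.acl]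
    · rw [lv_succ, lv_succ, ih h.tail]

/-! ### polynomials in the top variable -/

section up

variable {R : Type} [CommRing R] (φ : R →+* Ω)

/-- the polynomial in the top variable over the point `η` -/
def up (η : Fin e → Ω) (p : MvPolynomial (Fin (e + 1)) R) : Polynomial Ω :=
  (finSuccEquiv R e p).map (eval₂Hom φ η)

theorem up_coeff (η : Fin e → Ω) (p : MvPolynomial (Fin (e + 1)) R) (i : ℕ) :
    (up φ η p).coeff i = eval₂ φ η ((finSuccEquiv R e p).coeff i) := Polynomial.coeff_map _ _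

theorem up_eval (η : Fin (e + 1) → Ω) (p : MvPolynomial (Fin (e + 1)) R) :
    (up φ (Fin.tail η) p).eval (η 0) = eval₂ φ η p := by
  induction p using MvPolynomial.induction_on with
  | C a => simp [up, finSuccEquiv_apply]
  | add p q hp hq => simp only [up, map_add, Polynomial.map_add, Polynomial.eval_add] at *
                     rw [hp, hq, eval₂_add]
  | mul_X p i hp =>
    simp only [up, map_mul, Polynomial.map_mul, Polynomial.eval_mul, eval₂_mul, eval₂_X] at *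
    rw [hp]
    refine i.cases ?_ fun i => ?_
    · simp [finSuccEquiv_X_zero]
    · simp [finSuccEquiv_X_succ, Fin.tail]

theorem ev_mem {M : Subfield Ω} (hφ : ∀ a, φ a ∈ M) {ι : Type} {η : ι → Ω} (hη : ∀ j, η j ∈ M)
    (p : MvPolynomial ι R) : eval₂ φ η p ∈ M := by
  induction p using MvPolynomial.induction_on with
  | C a => simpa using hφ a
  | add p q hp hq => simpa [eval₂_add] using add_mem hp hq
  | mul_X p i hp => simpa [eval₂_mul] using mul_mem hp (hη i)

theorem up_mem (hφ : ∀ a, φ a ∈ E) {u η γ : Fin (e + 1) → Ω} (h : Tri E u η γ)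
    (p : MvPolynomial (Fin (e + 1)) R) (i : ℕ) : (up φ (Fin.tail η) p).coeff i ∈ Lv E u 0 := by
  rw [up_coeff, lv_zero]
  exact ev_mem φ (fun a => le_acl _ _ (hφ a)) h.tail.mem_acl _

theorem Tri.ev_ne (hφ : ∀ a, φ a ∈ E) (hi : Function.Injective φ) {u η γ : Fin e → Ω}
    (hu : Tw w E u) (h : Tri E u η γ) {p : MvPolynomial (Fin e) R} (hp : p ≠ 0) :
    eval₂ φ η p ≠ 0 := by
  induction e with
  | zero =>
    obtain ⟨a, rfl⟩ := C_surjective (Fin 0) p
    rw [eval₂_C]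
    exact fun k => hp (by rw [hi (k.trans (map_zero φ).symm), C_0])
  | succ e ih =>
    intro k
    have p0 : finSuccEquiv R e p ≠ 0 := by simpa using hp
    have u0 : up φ (Fin.tail η) p ≠ 0 := fun z => ih hu.tail h.tail
      (Polynomial.leadingCoeff_ne_zero.2 p0) (by
        rw [Polynomial.leadingCoeff, ← up_coeff, z, Polynomial.coeff_zero])
    have := (lv_cl u 0).root u0 (up_mem φ hφ h p) ((up_eval φ η p).trans k)
    have := div_mem (sub_mem this (h.cen 0)) (le_lv u 0 (h.mem 0))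
    rw [sub_sub_cancel, mul_div_cancel_left₀ _ (h.ne 0)] at this
    exact (hu 0).not_mem this

theorem tri_mon {u γ : Fin e → Ω} (hγ : ∀ j, γ j ∈ E ∧ γ j ≠ 0) :
    Tri E u (fun j => γ j * u j) γ :=
  ⟨fun j => (hγ j).1, fun j => (hγ j).2, fun j => by simp⟩

/-- the value of a polynomial at a monomial point -/
theorem mon_le [IsAlgClosed Ω] (hw : IsNonarchimedean w) (hφ : ∀ a, φ a ∈ E) {u γ : Fin e → Ω}
    (hu : Tw w E u) (hγ : ∀ j, γ j ∈ E ∧ γ j ≠ 0) (p : MvPolynomial (Fin e) R) (m : Fin e →₀ ℕ) :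
    w (φ (p.coeff m)) * ∏ j, w (γ j) ^ m j ≤ w (eval₂ φ (fun j => γ j * u j) p) := by
  induction e with
  | zero =>
    obtain ⟨a, rfl⟩ := C_surjective (Fin 0) p
    simp [Subsingleton.elim m 0]
  | succ e ih =>
    have h1 := ih hu.tail (γ := Fin.tail γ) (fun j => hγ j.succ)
      ((finSuccEquiv R e p).coeff (m 0)) m.tail
    rw [finSuccEquiv_coeff_coeff, Finsupp.cons_tail, ← up_coeff] at h1
    rw [← up_eval, (hu 0).eval_gn hw (le_lv u 0 (hγ 0).1) (hγ 0).2
      ((lv_cl u 0).roots (up_mem φ hφ (tri_mon hγ) p)), Fin.prod_univ_succ, mul_comm (_ ^ m 0),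
      ← mul_assoc]
    refine le_trans ?_ (Polynomial.le_gaussNorm w _ (w.nonneg _) (m 0))
    exact mul_le_mul_of_nonneg_right h1 (by positivity)

theorem ev_le (hw : IsNonarchimedean w) {ι : Type} [Fintype ι] (η : ι → Ω) (p : MvPolynomial ι R)
    {c : ℝ} (hc : 0 ≤ c) (h : ∀ m ∈ p.support, w (φ (p.coeff m)) * ∏ j, w (η j) ^ m j ≤ c) :
    w (eval₂ φ η p) ≤ c := by
  rw [eval₂_eq']
  exact na_sum hw _ _ hc fun m hm => by simpa only [map_mul, map_prod, map_pow] using h m hm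

theorem mon_eq [IsAlgClosed Ω] (hw : IsNonarchimedean w) (hφ : ∀ a, φ a ∈ E) {u γ : Fin e → Ω}
    (hu : Tw w E u) (hγ : ∀ j, γ j ∈ E ∧ γ j ≠ 0) {p : MvPolynomial (Fin e) R} (hp : p ≠ 0) :
    ∃ m ∈ p.support,
      w (eval₂ φ (fun j => γ j * u j) p) = w (φ (p.coeff m)) * ∏ j, w (γ j) ^ m j := by
  obtain ⟨m, hm, h⟩ := p.support.exists_max_image
    (fun m => w (φ (p.coeff m)) * ∏ j, w (γ j) ^ m j) (support_nonempty.2 hp)
  refine ⟨m, hm, le_antisymm (ev_le φ hw _ _ (by positivity) fun m' hm' => ?_)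
    (mon_le φ hw hφ hu hγ p m)⟩
  simpa only [map_mul, (hu _).one, mul_one] using h m' hm'

end up

theorem gauss : GAUSS := fun _ Ω _ _ _ _ w E v _ e u hu p m => by
  have := mon_le (algebraMap E Ω) v.na (fun a => a.2) hu (γ := fun _ => 1)
    (fun _ => ⟨E.one_mem, one_ne_zero⟩) p m
  simp only [map_one, one_pow, Finset.prod_const_one, mul_one, one_mul] at this
  exact this

theorem Tri.ind {k : Type} [Field k] [Algebra k Ω] (hk : ∀ a, algebraMap k Ω a ∈ E)
    {u η γ : Fin e → Ω} (hu : Tw w E u) (h : Tri E u η γ) : AlgebraicIndependent k η :=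
  algebraicIndependent_iff.2 fun _ hp => by_contra fun p0 =>
    h.ev_ne (algebraMap k Ω) hk (algebraMap k Ω).injective hu p0 hp

theorem ind : IND := fun _ _ _ _ _ _ _ _ _ _ _ _ _ _ hu h =>
  ⟨h.ind (fun a => a.2) hu, h.acl, h.lv⟩

theorem tw : TW := fun _ Ω _ _ _ _ w E v _ e y h => by
  induction e with
  | zero => exact ⟨y, y, fun j => j.elim0, fun j => j.elim0, fun j => j.elim0, fun j => j.elim0⟩
  | succ e ih =>
    obtain ⟨u, γ, hu, ht⟩ := ih (Fin.tail y) fun j => lv_succ y j ▸ h j.succ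
    obtain ⟨g, hg, k⟩ := h 0
    obtain ⟨α, hα, c, hc, c0, l⟩ := exists_disc v (lv_cl y 0) (le_lv y 0) hg k
    have e0 : Lv E (Fin.cons ((y 0 - α) / c) u : Fin (e + 1) → Ω) 0 = Lv E y 0 := by
      rw [lv_zero, lv_zero, Fin.tail_cons, ht.acl]
    refine ⟨Fin.cons ((y 0 - α) / c) u, Fin.cons c γ, fun j => ?_, ?_⟩
    · refine j.cases ?_ fun j => ?_
      · rw [e0]
        exact l
      · rw [lv_succ]
        exact hu j
    · have := Tri.cons (u := Fin.cons ((y 0 - α) / c) u) ht (e0 ▸ hα) hc c0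
      rwa [Fin.cons_zero, mul_div_cancel₀ _ c0, add_sub_cancel, Fin.cons_self_tail] at this

theorem dir : DIR := fun e η hη => by
  obtain ⟨M, hM⟩ := exists_nat_one_div_lt hη
  refine ⟨(M + 1) ^ e, fun x => ?_⟩
  have b : ∀ t : ℝ, ⌊Int.fract t * (M + 1 : ℕ)⌋₊ < M + 1 := fun t =>
    (Nat.floor_lt (mul_nonneg (Int.fract_nonneg _) (by positivity))).2
      (mul_lt_of_lt_one_left (by positivity) (Int.fract_lt_one _))
  let f : Fin ((M + 1) ^ e + 1) → Fin e → Fin (M + 1) := fun i j => ⟨_, b (i * x j)⟩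
  obtain ⟨i, i', ne, h⟩ := Fintype.exists_ne_map_eq_of_card_lt f (by simp)
  wlog lt : i < i' generalizing i i'
  · exact this i' i ne.symm h.symm (lt_of_le_of_ne (not_lt.1 lt) ne.symm)
  refine ⟨i' - i, fun j => ⌊(i' : ℝ) * x j⌋ - ⌊(i : ℝ) * x j⌋, Nat.sub_pos_of_lt lt,
    by have := i'.2; omega, fun j => ?_⟩
  have h1 : ⌊Int.fract (i * x j) * (M + 1 : ℕ)⌋₊ = ⌊Int.fract (i' * x j) * (M + 1 : ℕ)⌋₊ :=
    congrArg Fin.val (congrFun h j)
  have a1 := Nat.floor_le (mul_nonneg (Int.fract_nonneg (i * x j)) (Nat.cast_nonneg (M + 1)))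
  have a2 := Nat.floor_le (mul_nonneg (Int.fract_nonneg (i' * x j)) (Nat.cast_nonneg (M + 1)))
  have b1 := Nat.lt_floor_add_one (Int.fract (i * x j) * (M + 1 : ℕ))
  have b2 := Nat.lt_floor_add_one (Int.fract (i' * x j) * (M + 1 : ℕ))
  rw [h1] at a1 b1
  have e1 : ((i' - i : ℕ) : ℝ) * x j - ((⌊(i' : ℝ) * x j⌋ - ⌊(i : ℝ) * x j⌋ : ℤ) : ℝ) =
      Int.fract (i' * x j) - Int.fract (i * x j) := by
    rw [Nat.cast_sub (le_of_lt lt)]
    simp only [Int.fract, Int.cast_sub]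
    ring
  rw [e1]
  have p : (0 : ℝ) < M + 1 := by positivity
  rw [div_lt_iff₀ p] at hM
  push_cast at a1 a2 b1 b2
  rw [abs_le]
  constructor <;> nlinarith

theorem fine : FINE := fun k K Ω _ _ _ _ _ e P η h => by
  rcases eq_empty_or_nonempty {τ : K →ₐ[k] Ω | ∀ j, τ (P j) = η j} with z | ⟨τ₀, h0⟩
  · rw [z]
    exact finite_empty
  let F := IntermediateField.adjoin k (range P)
  let _ : Algebra F Ω := ((τ₀ : K →+* Ω).comp (algebraMap F K)).toAlgebra
  have key : ∀ τ : K →ₐ[k] Ω, (∀ j, τ (P j) = η j) → ∀ a : F, τ a = τ₀ a := fun τ hτ a => by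
    obtain ⟨a, ha⟩ := a
    refine IntermediateField.adjoin_induction k (p := fun x _ => τ x = τ₀ x) ?_ ?_ ?_ ?_ ?_ ha
    · rintro _ ⟨j, rfl⟩
      rw [hτ, h0]
    · intro x
      simp
    · intro x y _ _ a b
      simp [a, b]
    · intro x _ a
      simp [a]
    · intro x y _ _ a b
      simp [a, b]
  let g : {τ : K →ₐ[k] Ω | ∀ j, τ (P j) = η j} → (K →ₐ[F] Ω) := fun τ =>
    { (τ.1 : K →+* Ω) with commutes' := key τ.1 τ.2 }
  exact Finite.of_injective g fun a b hab =>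
    Subtype.ext (AlgHom.ext fun x => DFunLike.congr_fun hab x)

theorem ram : RAM := fun k Ω _ _ _ _ w E v hk e K _ _ τ u γ P x hf hu hγ hτ x0 => by
  let F := IntermediateField.adjoin k (range P)
  have g0 : ∀ j, w (γ j) ≠ 0 := fun j => (w.pos (hγ j).2).ne'
  have val : ∀ c : F, c ≠ 0 → ∃ (a : k) (z : Fin e → ℤ), a ≠ 0 ∧
      w (τ c) = w (algebraMap k Ω a) * ∏ j, w (γ j) ^ z j := fun c c0 => by
    obtain ⟨p, q, h⟩ := (IntermediateField.mem_adjoin_range_iff k P c.1).1 c.2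
    have c1 : (c : K) ≠ 0 := fun z => c0 (Subtype.ext z)
    have p0 : p ≠ 0 := by
      rintro rfl
      simp [c1] at h
    have q0 : q ≠ 0 := by
      rintro rfl
      simp [c1] at h
    obtain ⟨m, hm, a⟩ := mon_eq (algebraMap k Ω) v.na hk hu hγ p0
    obtain ⟨n, hn, b⟩ := mon_eq (algebraMap k Ω) v.na hk hu hγ q0
    refine ⟨p.coeff m / q.coeff n, fun j => m j - n j, div_ne_zero (mem_support_iff.1 hm)
      (mem_support_iff.1 hn), ?_⟩
    rw [h, map_div₀, map_div₀, comp_aeval_apply, comp_aeval_apply, funext hτ, aeval_def, aeval_def,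
      a, b, map_div₀, map_div₀, mul_div_mul_comm, ← Finset.prod_div_distrib]
    simp only [zpow_sub₀ (g0 _), zpow_natCast]
  have hx : IsIntegral F x := Algebra.IsIntegral.isIntegral x
  let ψ : F →+* Ω := (τ : K →+* Ω).comp (algebraMap F K)
  have r : ((minpoly F x).map ψ).IsRoot (τ x) := by
    rw [Polynomial.IsRoot, ← Polynomial.eval₂_eq_eval_map]
    have := congrArg τ (minpoly.aeval F x)
    rwa [Polynomial.aeval_def, map_zero, ← RingHom.coe_coe, Polynomial.hom_eval₂] at this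
  have t0 : τ x ≠ 0 := (map_ne_zero τ).2 x0
  have s := w.pos t0
  have key : ∀ i j, i < j → (minpoly F x).coeff i ≠ 0 → (minpoly F x).coeff j ≠ 0 →
      w (ψ ((minpoly F x).coeff i)) * w (τ x) ^ i = w (ψ ((minpoly F x).coeff j)) * w (τ x) ^ j →
      ∃ (i : ℕ) (a : k) (z : Fin e → ℤ), 0 < i ∧ i ≤ Module.finrank F K ∧ a ≠ 0 ∧
        w (τ x) ^ i = w (algebraMap k Ω a) * ∏ j, w (γ j) ^ z j := fun i j ij a b h => by
    obtain ⟨c, z, c0, hc⟩ := val _ (div_ne_zero a b)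
    refine ⟨j - i, c, z, by omega, ?_, c0, ?_⟩
    · have := Polynomial.le_natDegree_of_ne_zero b
      have := minpoly.natDegree_le (A := F) x
      omega
    · rw [← hc]
      change _ = w (ψ (_ / _))
      rw [map_div₀, map_div₀, eq_div_iff (w.pos ((map_ne_zero ψ).2 b)).ne', pow_sub₀ _ s.ne' ij.le]
      field_simp
      linarith
  have f0 : (minpoly F x).map ψ ≠ 0 := Polynomial.map_ne_zero (minpoly.ne_zero hx)
  have n0 : ((minpoly F x).map ψ).gaussNorm w (w (τ x)) ≠ 0 := fun l =>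
    f0 ((Polynomial.gaussNorm_eq_zero_iff w _ (fun _ => w.eq_zero.1) s).1 l)
  obtain ⟨i, hi⟩ := ((minpoly F x).map ψ).exists_eq_gaussNorm w (w (τ x))
  obtain ⟨j, ji, hj⟩ := two_of_root v.na r i fun l => n0 (by
    rw [hi, ← map_pow, ← map_mul, l, map_zero])
  have hj' := le_antisymm (hi.trans_le hj) (Polynomial.le_gaussNorm w _ s.le j)
  rw [Polynomial.coeff_map] at hi hj'
  have i0 : (minpoly F x).coeff i ≠ 0 := fun l => n0 (by simp [hi, l])
  have j0 : (minpoly F x).coeff j ≠ 0 := fun l => n0 (by simp [hj', l])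
  rcases ji.lt_or_gt with b | b
  exacts [key j i b j0 i0 (hj'.symm.trans hi), key i j b i0 j0 (hi.symm.trans hj')]

end Vale.Agent.P283B.Mono
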