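import Vale.Agent.P283B.MONO.St

/-!
# P283B, block MONO: Gauss norms, Newton polygons, generic towers
-/

open Set Polynomial

noncomputable section

namespace Vale.Agent.P283B.Mono

variable {Ω : Type} [Field Ω] {w : AbsoluteValue Ω ℝ}

section na

variable (hw : IsNonarchimedean w)
include hw

theorem na_sum {ι : Type*} (s : Finset ι) (f : ι → Ω) {c : ℝ} (hc : 0 ≤ c)
    (h : ∀ i ∈ s, w (f i) ≤ c) : w (∑ i ∈ s, f i) ≤ c := by
  classical
  induction s using Finset.induction_on with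
  | empty => simpa using hc
  | insert a s ha ih =>
    rw [Finset.sum_insert ha]
    exact (hw _ _).trans (max_le (h a (by simp)) (ih fun i hi => h i (by simp [hi])))

theorem na_sum_lt {ι : Type*} (s : Finset ι) (f : ι → Ω) {c : ℝ} (hc : 0 < c)
    (h : ∀ i ∈ s, w (f i) < c) : w (∑ i ∈ s, f i) < c := by
  classical
  induction s using Finset.induction_on with
  | empty => simpa using hc
  | insert a s ha ih =>
    rw [Finset.sum_insert ha]
    exact (hw _ _).trans_lt (max_lt (h a (by simp)) (ih fun i hi => h i (by simp [hi])))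

theorem na_sub (x y : Ω) : w (x - y) ≤ max (w x) (w y) := by
  have := hw x (-y)
  rwa [w.map_neg, ← sub_eq_add_neg] at this

theorem na_add_lt {x y : Ω} (h : w y < w x) : w (x + y) = w x := by
  apply le_antisymm ((hw _ _).trans (max_le le_rfl h.le))
  have := na_sub hw (x + y) y
  rw [add_sub_cancel_right] at this
  exact (le_max_iff.1 this).resolve_right h.not_ge

theorem na_sub_lt {x y : Ω} (h : w y < w x) : w (x - y) = w x := by
  rw [sub_eq_add_neg, na_add_lt hw (by rwa [w.map_neg])]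

theorem gn_lin {c : ℝ} (hc : 0 < c) (ρ : Ω) : (X - C ρ).gaussNorm w c = max c (w ρ) := by
  apply le_antisymm
  · have := isNonarchimedean_gaussNorm w hw hc.le X (C (-ρ))
    rw [← monomial_one_one_eq_X, gaussNorm_monomial, gaussNorm_C] at this
    simpa [monomial_one_one_eq_X, sub_eq_add_neg] using this
  · have h1 := (X - C ρ).le_gaussNorm w hc.le 1
    have h0 := (X - C ρ).le_gaussNorm w hc.le 0
    simp [coeff_X, coeff_C] at h1 h0
    exact max_le h1 h0

theorem gn_roots [IsAlgClosed Ω] {c : ℝ} (hc : 0 < c) (f : Polynomial Ω) :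
    f.gaussNorm w c = w f.leadingCoeff * (f.roots.map fun ρ => max c (w ρ)).prod := by
  conv_lhs => rw [(IsAlgClosed.splits f).eq_prod_roots]
  rw [gaussNorm_mul hw hc, gaussNorm_C]
  congr 1
  induction f.roots using Multiset.induction_on with
  | empty => simpa using gaussNorm_C w c (1 : Ω)
  | cons a s ih => simp only [Multiset.map_cons, Multiset.prod_cons, gaussNorm_mul hw hc, ih,
      gn_lin hw hc]

theorem eval_le {c : ℝ} {x : Ω} (hx : w x ≤ c) (f : Polynomial Ω) : w (f.eval x) ≤ f.gaussNorm w c := by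
  have hc : 0 ≤ c := (w.nonneg x).trans hx
  rw [eval_eq_sum_range]
  refine na_sum hw _ _ (f.gaussNorm_nonneg w hc) fun i _ => le_trans ?_ (f.le_gaussNorm w hc i)
  rw [map_mul, map_pow]
  gcongr

theorem two_of_root {f : Polynomial Ω} {x : Ω} (hf : f.IsRoot x) (i : ℕ) (h : f.coeff i * x ^ i ≠ 0) :
    ∃ j, j ≠ i ∧ w (f.coeff i) * w x ^ i ≤ w (f.coeff j) * w x ^ j := by
  classical
  by_contra hn
  push Not at hn
  have hi : i ∈ f.support := mem_support_iff.2 (left_ne_zero_of_mul h)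
  have e : f.eval x = f.coeff i * x ^ i + ∑ j ∈ f.support.erase i, f.coeff j * x ^ j := by
    rw [eval_eq_sum, Polynomial.sum, Finset.add_sum_erase _ (fun j => f.coeff j * x ^ j) hi]
  have := na_add_lt hw (x := f.coeff i * x ^ i) (na_sum_lt hw (f.support.erase i)
    (fun j => f.coeff j * x ^ j) (w.pos h) fun j hj => by
      simpa only [map_mul, map_pow] using hn j (Finset.ne_of_mem_erase hj))
  rw [← e, hf.eq_zero, map_zero] at this
  exact h (w.eq_zero.1 this.symm)

theorem root_of_two [IsAlgClosed Ω] {g : Polynomial Ω} (hg : g ≠ 0) {s : ℝ} (hs : 0 < s) {i j : ℕ}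
    (hij : i < j) (hi : g.gaussNorm w s = w (g.coeff i) * s ^ i)
    (hj : g.gaussNorm w s = w (g.coeff j) * s ^ j) : ∃ x, g.IsRoot x ∧ w x = s := by
  by_contra hn
  push Not at hn
  have hl : ∀ m : Multiset Ω, (∀ ρ ∈ m, w ρ ≠ s) → ∃ l : ℝ, 1 < l ∧
      ∀ ρ ∈ m, l * s ≤ w ρ ∨ w ρ * l ≤ s := fun m => by
    induction m using Multiset.induction_on with
    | empty => exact fun _ => ⟨2, by norm_num, by simp⟩
    | cons a m ih =>
      intro h
      obtain ⟨l, l1, hl⟩ := ih fun ρ hρ => h ρ (by simp [hρ])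
      have : ∃ l' : ℝ, 1 < l' ∧ (l' * s ≤ w a ∨ w a * l' ≤ s) := by
        rcases (h a (by simp)).lt_or_gt with b | b
        · rcases (w.nonneg a).eq_or_lt with z | z
          · exact ⟨2, by norm_num, Or.inr (by rw [← z]; linarith)⟩
          · exact ⟨s / w a, (one_lt_div z).2 b, Or.inr (by field_simp; rfl)⟩
        · exact ⟨w a / s, (one_lt_div hs).2 b, Or.inl (by field_simp; rfl)⟩
      obtain ⟨l', l1', hl'⟩ := this
      refine ⟨min l l', lt_min l1 l1', fun ρ hρ => ?_⟩
      have p := min_le_left l l'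
      have q := min_le_right l l'
      have := w.nonneg ρ
      rcases Multiset.mem_cons.1 hρ with rfl | hρ
      · exact hl'.imp (fun b => by nlinarith) fun b => by nlinarith
      · exact (hl ρ hρ).imp (fun b => by nlinarith) fun b => by nlinarith
  obtain ⟨l, l1, hl⟩ := hl g.roots fun ρ hρ => hn ρ ((mem_roots hg).1 hρ)
  have l0 : 0 < l := by linarith
  have e : g.gaussNorm w (l * s) * g.gaussNorm w (s / l) = g.gaussNorm w s * g.gaussNorm w s := by
    rw [gn_roots hw (by positivity), gn_roots hw (by positivity), gn_roots hw hs,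
      mul_mul_mul_comm, mul_mul_mul_comm _ (Multiset.prod _), ← Multiset.prod_map_mul,
      ← Multiset.prod_map_mul]
    congr 2
    refine Multiset.map_congr rfl fun ρ hρ => ?_
    have a1 : s / l ≤ s := div_le_self hs.le l1.le
    have a2 : s ≤ l * s := by nlinarith
    rcases hl ρ hρ with b | b
    · rw [max_eq_right b, max_eq_right (a1.trans (a2.trans b)), max_eq_right (a2.trans b)]
    · have b' : w ρ ≤ s / l := (le_div_iff₀ l0).2 b
      rw [max_eq_left b', max_eq_left (b'.trans (a1.trans a2)), max_eq_left (b'.trans a1)]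
      field_simp
  have g0 : 0 < g.gaussNorm w s := lt_of_le_of_ne (g.gaussNorm_nonneg w hs.le) fun h =>
    hg ((gaussNorm_eq_zero_iff w g (fun _ => w.eq_zero.1) hs).1 h.symm)
  have h1 := g.le_gaussNorm w (c := l * s) (by positivity) j
  have h2 := g.le_gaussNorm w (c := s / l) (by positivity) i
  rw [mul_pow, mul_left_comm, ← hj] at h1
  rw [div_pow, ← mul_div_assoc, ← hi] at h2
  have h3 := mul_le_mul h1 h2 (by positivity) (g.gaussNorm_nonneg w (by positivity))
  rw [e] at h3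
  have h4 : l ^ i < l ^ j := pow_lt_pow_right₀ l1 hij
  have h5 : l ^ j * g.gaussNorm w s * (g.gaussNorm w s / l ^ i) =
      g.gaussNorm w s * g.gaussNorm w s * (l ^ j / l ^ i) := by ring
  have h6 : 1 < l ^ j / l ^ i := (one_lt_div (by positivity)).2 h4
  nlinarith [mul_pos g0 g0]

omit hw in
theorem gn_le {f g : Polynomial Ω} {c d : ℝ} (hc : 0 ≤ c)
    (h : ∀ i, w (f.coeff i) ≤ d * w (g.coeff i)) (hd : 0 ≤ d) :
    f.gaussNorm w c ≤ d * g.gaussNorm w c := by
  obtain ⟨i, hi⟩ := f.exists_eq_gaussNorm w c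
  calc _ = _ := hi
    _ ≤ d * (w (g.coeff i) * c ^ i) := by
      rw [← mul_assoc]
      exact mul_le_mul_of_nonneg_right (h i) (by positivity)
    _ ≤ _ := mul_le_mul_of_nonneg_left (g.le_gaussNorm w hc i) hd

/-- the Newton polygon determines the values of the roots -/
theorem np [IsAlgClosed Ω] {f g : Polynomial Ω} (hf : f ≠ 0) (h : ∀ i, w (f.coeff i) = w (g.coeff i))
    {x : Ω} (hx : f.IsRoot x) : ∃ x', g.IsRoot x' ∧ w x' = w x := by
  by_cases x0 : x = 0
  · subst x0
    refine ⟨0, ?_, rfl⟩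
    have := h 0
    rw [coeff_zero_eq_eval_zero, hx.eq_zero, map_zero, coeff_zero_eq_eval_zero] at this
    exact w.eq_zero.1 this.symm
  have hs := w.pos x0
  have e : f.gaussNorm w (w x) = g.gaussNorm w (w x) := le_antisymm
    (by simpa using gn_le (d := 1) hs.le (fun i => by simp [h]) zero_le_one)
    (by simpa using gn_le (d := 1) hs.le (fun i => by simp [h]) zero_le_one)
  have f0 : f.gaussNorm w (w x) ≠ 0 := fun k =>
    hf ((gaussNorm_eq_zero_iff w f (fun _ => w.eq_zero.1) hs).1 k)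
  have hg : g ≠ 0 := by
    rintro rfl
    exact f0 (by rw [e, gaussNorm_zero])
  obtain ⟨i, hi⟩ := f.exists_eq_gaussNorm w (w x)
  obtain ⟨j, ji, hj⟩ := two_of_root hw hx i fun k => f0 (by rw [hi, ← map_pow, ← map_mul, k,
    map_zero])
  have hj' := le_antisymm (hi.trans_le hj) (f.le_gaussNorm w hs.le j)
  rw [e, h] at hi hj'
  rcases ji.lt_or_gt with b | b
  exacts [root_of_two hw hg hs b hj' hi, root_of_two hw hg hs b hi hj']

end na

/-! ### relatively closed subfields -/

/-- `M` is algebraically closed in `Ω` -/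
def Cl (M : Subfield Ω) : Prop := ∀ x, IsAlgebraic M x → x ∈ M

theorem mem_acl {E : Subfield Ω} {S : Set Ω} {x : Ω} :
    x ∈ acl E S ↔ IsAlgebraic (Subfield.closure ((E : Set Ω) ∪ S)) x :=
  mem_algebraicClosure_iff

theorem acl_cl (E : Subfield Ω) (S : Set Ω) : Cl (acl E S) := fun x hx => by
  let A := algebraicClosure (Subfield.closure ((E : Set Ω) ∪ S)) Ω
  have h : IsAlgebraic A x := hx
  exact mem_acl.2 (h.restrictScalars _)

theorem cl_le_acl (E : Subfield Ω) (S : Set Ω) :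
    Subfield.closure ((E : Set Ω) ∪ S) ≤ acl E S := fun x hx =>
  mem_acl.2 (isAlgebraic_algebraMap (⟨x, hx⟩ : Subfield.closure ((E : Set Ω) ∪ S)))

theorem le_acl (E : Subfield Ω) (S : Set Ω) : E ≤ acl E S := fun _ hx =>
  cl_le_acl E S (Subfield.subset_closure (Or.inl hx))

theorem sub_acl (E : Subfield Ω) (S : Set Ω) : S ⊆ acl E S := fun _ hx =>
  cl_le_acl E S (Subfield.subset_closure (Or.inr hx))

theorem Cl.root {M : Subfield Ω} (h : Cl M) {f : Polynomial Ω} (f0 : f ≠ 0) (hf : ∀ i, f.coeff i ∈ M)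
    {x : Ω} (hx : f.IsRoot x) : x ∈ M := by
  obtain ⟨q, rfl⟩ : f ∈ lifts (algebraMap M Ω) :=
    (lifts_iff_coeff_lifts f).2 fun i => ⟨⟨_, hf i⟩, rfl⟩
  refine h x ⟨q, fun e => f0 (by simp [e]), ?_⟩
  rw [aeval_def, eval₂_eq_eval_map]
  exact hx

theorem acl_le {E M : Subfield Ω} {S : Set Ω} (h : Cl M) (hE : E ≤ M) (hS : S ⊆ M) :
    acl E S ≤ M := fun x hx => by
  obtain ⟨q, q0, hq⟩ := mem_acl.1 hx
  have le : Subfield.closure ((E : Set Ω) ∪ S) ≤ M := Subfield.closure_le.2 (union_subset hE hS)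
  refine h.root (f := q.map (algebraMap _ Ω)) (Polynomial.map_ne_zero q0) (fun i => ?_) ?_
  · rw [coeff_map]
    exact le (q.coeff i).2
  · rwa [aeval_def, eval₂_eq_eval_map] at hq

theorem acl_eq {E : Subfield Ω} {S T : Set Ω} (h : S ⊆ acl E T) (k : T ⊆ acl E S) :
    acl E S = acl E T :=
  le_antisymm (acl_le (acl_cl _ _) (le_acl _ _) h) (acl_le (acl_cl _ _) (le_acl _ _) k)

/-! ### generic points of discs -/

section gn

variable (hw : IsNonarchimedean w) {M : Subfield Ω} {x : Ω} (h : Gn w M x)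
include h

theorem Gn.one : w x = 1 := le_antisymm h.1 (by simpa using h.2 0 M.zero_mem)

theorem Gn.not_mem : x ∉ M := fun k => by
  have := h.2 x k
  rw [sub_self, map_zero] at this
  linarith

include hw

theorem Gn.sub {a : Ω} (ha : a ∈ M) : w (x - a) = max 1 (w a) := by
  rcases le_or_gt (w a) 1 with b | b
  · rw [max_eq_left b]
    exact le_antisymm ((na_sub hw _ _).trans (max_le h.1 b)) (h.2 a ha)
  · rw [max_eq_right b.le, w.map_sub, na_sub_lt hw (by rwa [h.one])]

theorem Gn.lin {γ ρ : Ω} (hγ : γ ∈ M) (γ0 : γ ≠ 0) (hρ : ρ ∈ M) :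
    w (γ * x - ρ) = max (w γ) (w ρ) := by
  have e : γ * x - ρ = γ * (x - ρ / γ) := by field_simp
  have := w.pos γ0
  rw [e, map_mul, h.sub hw (div_mem hρ hγ), map_div₀, mul_max_of_nonneg _ _ this.le]
  congr 1 <;> field_simp

theorem Gn.eval_roots [IsAlgClosed Ω] {α γ : Ω} (hα : α ∈ M) (hγ : γ ∈ M) (γ0 : γ ≠ 0)
    {f : Polynomial Ω} (hf : ∀ ρ ∈ f.roots, ρ ∈ M) : w (f.eval (α + γ * x)) =
      w f.leadingCoeff * (f.roots.map fun ρ => max (w γ) (w (ρ - α))).prod := by
  rw [(IsAlgClosed.splits f).eval_eq_prod_roots, map_mul, map_multiset_prod, Multiset.map_map]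
  congr 2
  refine Multiset.map_congr rfl fun ρ hρ => ?_
  rw [← h.lin hw hγ γ0 (sub_mem (hf ρ hρ) hα)]
  exact congrArg w (by ring)

theorem Gn.eval_gn [IsAlgClosed Ω] {γ : Ω} (hγ : γ ∈ M) (γ0 : γ ≠ 0) {f : Polynomial Ω}
    (hf : ∀ ρ ∈ f.roots, ρ ∈ M) : w (f.eval (γ * x)) = f.gaussNorm w (w γ) := by
  have := h.eval_roots hw M.zero_mem hγ γ0 hf
  rw [zero_add] at this
  simp [this, gn_roots hw (w.pos γ0)]

end gn

theorem Cl.roots {M : Subfield Ω} (h : Cl M) {f : Polynomial Ω} (hf : ∀ i, f.coeff i ∈ M) :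
    ∀ ρ ∈ f.roots, ρ ∈ M := fun _ hρ => h.root (mem_roots'.1 hρ).1 hf (mem_roots'.1 hρ).2

/-- a generic element of `M (y)` gives a disc of which `y` is the generic point -/
theorem exists_disc [IsAlgClosed Ω] {E M : Subfield Ω} (v : VS w E) (hM : Cl M) (hE : E ≤ M)
    {y g : Ω} (hg : g ∈ Subfield.closure ((M : Set Ω) ∪ {y})) (h : Gn w M g) :
    ∃ α ∈ M, ∃ γ ∈ E, γ ≠ 0 ∧ Gn w M ((y - α) / γ) := by
  by_contra hn
  push Not at hn
  have hw := v.na
  let A : Ω → Prop := fun z => z = 0 ∨ ∃ b ∈ M, w (z - b) < w z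
  have eq : ∀ {z b : Ω}, w (z - b) < w z → w b = w z := fun {z b} k => by
    rw [← na_sub_lt hw k, sub_sub_cancel]
  have mul : ∀ a b, A a → A b → A (a * b) := by
    rintro a b (rfl | ⟨c, hc, k⟩) (rfl | ⟨d, hd, l⟩)
    iterate 3 exact Or.inl (by simp)
    refine Or.inr ⟨c * d, mul_mem hc hd, ?_⟩
    have a0 : 0 < w a := (w.nonneg _).trans_lt k
    have b0 : 0 < w b := (w.nonneg _).trans_lt l
    have e : a * b - c * d = a * (b - d) + (a - c) * d := by ring
    rw [e]
    refine (hw _ _).trans_lt (max_lt ?_ ?_) <;> simp only [map_mul, eq l] <;> gcongr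
  have inv : ∀ a, A a → A a⁻¹ := by
    rintro a (rfl | ⟨c, hc, k⟩)
    · exact Or.inl inv_zero
    have a0 : 0 < w a := (w.nonneg _).trans_lt k
    have a1 : a ≠ 0 := w.pos_iff.1 a0
    have c1 : c ≠ 0 := w.pos_iff.1 (by rwa [eq k])
    refine Or.inr ⟨c⁻¹, inv_mem hc, ?_⟩
    have e : a⁻¹ - c⁻¹ = -(a - c) / (a * c) := by field_simp; ring
    rw [e, map_div₀, w.map_neg, map_mul, eq k, map_inv₀, div_lt_iff₀ (by positivity)]
    rwa [inv_mul_cancel_left₀ a0.ne']
  have cst : ∀ a ∈ M, A a := fun a ha => (eq_or_ne a 0).imp_right fun a0 =>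
    ⟨a, ha, by simpa using a0⟩
  have lin : ∀ a ∈ M, A (y - a) := fun a ha => (eq_or_ne (y - a) 0).imp_right fun y0 => by
    obtain ⟨γ, hγ, e⟩ := v.ful (y - a)
    have p := w.pos y0
    have γ0 : γ ≠ 0 := w.pos_iff.1 (e ▸ p)
    have := hn a ha γ hγ γ0
    rw [Gn, not_and] at this
    have := this (by rw [map_div₀, e, div_self p.ne'])
    push Not at this
    obtain ⟨b, hb, k⟩ := this
    refine ⟨γ * b, mul_mem (hE hγ) hb, ?_⟩
    have e' : y - a - γ * b = γ * ((y - a) / γ - b) := by field_simp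
    rw [e', map_mul, e]
    exact mul_lt_of_lt_one_right p k
  have pol : ∀ f : M[X], A (aeval y f) := fun f => by
    have hf : ∀ ρ ∈ (f.map (algebraMap M Ω)).roots, ρ ∈ M := hM.roots fun i => by
      rw [coeff_map]
      exact (f.coeff i).2
    rw [aeval_def, eval₂_eq_eval_map, (IsAlgClosed.splits _).eval_eq_prod_roots]
    refine mul _ _ (cst _ ?_) (Multiset.prod_induction A _ mul (cst 1 M.one_mem) ?_)
    · rw [leadingCoeff, coeff_map]
      exact (f.coeff _).2
    · intro a ha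
      obtain ⟨ρ, hρ, rfl⟩ := Multiset.mem_map.1 ha
      exact lin ρ (hf ρ hρ)
  have hg' : g ∈ IntermediateField.adjoin M {y} := by
    change g ∈ Subfield.closure _
    convert hg
    ext z
    simp [Subfield.algebraMap_ofSubfield]
  obtain ⟨p, q, rfl⟩ := (IntermediateField.mem_adjoin_simple_iff _ _).1 hg'
  rcases mul _ _ (pol p) (inv _ (pol q)) with k | ⟨b, hb, k⟩
  · exact h.not_mem (by rw [div_eq_mul_inv, k]; exact M.zero_mem)
  · rw [← div_eq_mul_inv, h.one] at k
    exact k.not_ge (h.2 b hb)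

end Vale.Agent.P283B.Mono
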