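import Vale.Agent.P283B.MONO.Va2

/-!
# P283B, block MONO: relations of bounded degree, embeddings, transport of values, LIP
-/

open Set MvPolynomial

noncomputable section

namespace Vale.Agent.P283B.Mono

section rl

variable {k K ι : Type} [Field k] [Field K] [Algebra k K]

/-- the polynomial `R` over the point `y` -/
abbrev at_ (y : ι → K) (R : Polynomial (MvPolynomial ι k)) : Polynomial K :=
  R.map (aeval y : MvPolynomial ι k →ₐ[k] K).toRingHom

/-- the degrees of `R` are at most `c` -/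
def Bd (c : ℕ) (R : Polynomial (MvPolynomial ι k)) : Prop :=
  R.natDegree ≤ c ∧ ∀ i, (R.coeff i).totalDegree ≤ c

variable (k) in
/-- `x` satisfies an equation of degree at most `c` over `k[y]` -/
def Rl (y : ι → K) (c : ℕ) (x : K) : Prop :=
  ∃ R : Polynomial (MvPolynomial ι k), R ≠ 0 ∧ Bd c R ∧ (at_ y R).IsRoot x

theorem Rl.mono {y : ι → K} {c d : ℕ} {x : K} (h : Rl k y c x) (cd : c ≤ d) : Rl k y d x :=
  let ⟨R, a, b, r⟩ := h
  ⟨R, a, ⟨b.1.trans cd, fun i => (b.2 i).trans cd⟩, r⟩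

theorem rl_pol (y : ι → K) {c : ℕ} {p : MvPolynomial ι k} (h : p.totalDegree ≤ c) :
    Rl k y (c + 1) (aeval y p) := by
  refine ⟨Polynomial.X - Polynomial.C p, Polynomial.X_sub_C_ne_zero p,
    ⟨by simp, fun i => ?_⟩, ?_⟩
  · rcases i with _ | _ | i
    · simpa using h.trans (Nat.le_succ c)
    · simp
    · simp [Polynomial.coeff_X]
  · rw [at_, Polynomial.map_sub, Polynomial.map_X, Polynomial.map_C]
    exact Polynomial.root_X_sub_C.2 rfl

theorem at_opt (y : ι → K) (x : K) (R : MvPolynomial (Option ι) k) :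
    (at_ y (optionEquivLeft k ι R)).eval x = aeval (fun o => Option.elim o x y) R := by
  induction R using MvPolynomial.induction_on with
  | C a => simp [optionEquivLeft_C]
  | add p q hp hq => simp only [at_, map_add, Polynomial.map_add, Polynomial.eval_add] at *
                     rw [hp, hq]
  | mul_X p i hp =>
    simp only [at_, map_mul, Polynomial.map_mul, Polynomial.eval_mul, aeval_X] at *
    rw [hp]
    rcases i with _ | i
    · simp [optionEquivLeft_X_none]
    · simp [optionEquivLeft_X_some]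

theorem bd_opt (R : MvPolynomial (Option ι) k) : Bd R.totalDegree (optionEquivLeft k ι R) :=
  ⟨(natDegree_optionEquivLeft k R).trans_le (degreeOf_le_totalDegree _ _),
    totalDegree_coeff_optionEquivLeft_le k ι R⟩

theorem td_opt [Fintype ι] {R : MvPolynomial (Option ι) k} {c : ℕ}
    (h : Bd c (optionEquivLeft k ι R)) : R.totalDegree ≤ 2 * c := by
  refine Finset.sup_le fun m hm => ?_
  have h1 : m.some ∈ ((optionEquivLeft k ι R).coeff (m none)).support := by
    rwa [mem_support_coeff_optionEquivLeft, Finsupp.optionElim_some]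
  have h2 := (le_totalDegree h1).trans (h.2 _)
  have h3 := (Polynomial.le_natDegree_of_ne_zero (support_nonempty.1 ⟨_, h1⟩)).trans h.1
  rw [Finsupp.sum_fintype _ _ fun _ => rfl] at h2 ⊢
  rw [Fintype.sum_option]
  simp only [Finsupp.some_apply] at h2
  omega

theorem Rl.irr [Fintype ι] {y : ι → K} {c : ℕ} {x : K} (h : Rl k y c x) :
    ∃ R : Polynomial (MvPolynomial ι k), Irreducible R ∧ Bd (2 * c) R ∧ (at_ y R).IsRoot x := by
  obtain ⟨R, a, b, r⟩ := h
  have key : ∀ S : Polynomial (MvPolynomial ι k), S ≠ 0 → (at_ y S).IsRoot x →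
      ∃ T, Irreducible T ∧ T ∣ S ∧ (at_ y T).IsRoot x := fun S => by
    induction S using WfDvdMonoid.induction_on_irreducible with
    | zero => exact fun z => (z rfl).elim
    | unit u hu =>
      intro _ r
      have := (hu.map (Polynomial.mapRingHom (aeval y : MvPolynomial ι k →ₐ[k] K).toRingHom)).map
        (Polynomial.evalRingHom x)
      exact (this.ne_zero r).elim
    | mul S T S0 hT ih =>
      intro _ r
      rw [at_, Polynomial.map_mul, Polynomial.root_mul] at r
      rcases r with r | r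
      · exact ⟨T, hT, dvd_mul_right _ _, r⟩
      · obtain ⟨U, hU, d, r⟩ := ih S0 r
        exact ⟨U, hU, d.mul_left _, r⟩
  obtain ⟨T, hT, d, r⟩ := key R a r
  obtain ⟨R, rfl⟩ := (optionEquivLeft k ι).surjective R
  obtain ⟨T, rfl⟩ := (optionEquivLeft k ι).surjective T
  have := (totalDegree_le_of_dvd_of_isDomain ((map_dvd_iff _).1 d) fun z => a (by simp [z])).trans
    (td_opt b)
  exact ⟨_, hT, ⟨(bd_opt T).1.trans this, fun i => ((bd_opt T).2 i).trans this⟩, r⟩

theorem td_aeval {J : Type} {a : J → MvPolynomial ι k} {c : ℕ} (h : ∀ j, (a j).totalDegree ≤ c)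
    (p : MvPolynomial J ℤ) : (aeval a p).totalDegree ≤ p.totalDegree * c := by
  rw [aeval_def, eval₂_eq]
  refine (totalDegree_finsetSum _ _).trans (Finset.sup_le fun m hm => ?_)
  refine (totalDegree_mul _ _).trans ?_
  have e : (algebraMap ℤ (MvPolynomial ι k) (p.coeff m)).totalDegree = 0 := by
    rw [eq_intCast, ← map_intCast (C : k →+* MvPolynomial ι k), totalDegree_C]
  rw [e, zero_add]
  refine (totalDegree_finsetProd _ _).trans (le_trans ?_ (Nat.mul_le_mul_right c
    (le_totalDegree hm)))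
  rw [Finsupp.sum, Finset.sum_mul]
  exact Finset.sum_le_sum fun j _ => (totalDegree_pow _ _).trans (Nat.mul_le_mul_left _ (h j))

/-- the two operations -/
def op {S : Type} [CommRing S] (t : Bool) (a b : S) : S := if t then a * b else a - b

/-- the universal polynomial -/
def un (b : Bool) (d : ℕ) : Polynomial (MvPolynomial (Bool × ℕ) ℤ) :=
  ∑ i ∈ Finset.range (d + 1), Polynomial.monomial i (X (b, i))

theorem un_lead (b : Bool) (d : ℕ) : (un b d).leadingCoeff = X (b, d) := by
  have c : (un b d).coeff d = X (b, d) := by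
    simp [un, Polynomial.coeff_monomial]
  have l : (un b d).natDegree ≤ d := Polynomial.natDegree_sum_le_of_forall_le _ _ fun i hi =>
    (Polynomial.natDegree_monomial_le _).trans (Nat.lt_succ_iff.1 (Finset.mem_range.1 hi))
  rw [Polynomial.leadingCoeff, Polynomial.natDegree_eq_of_le_of_coeff_ne_zero l
    (c ▸ X_ne_zero _), c]

theorem univ (t : Bool) (d d' : ℕ) : ∃ (χ : Polynomial (MvPolynomial (Bool × ℕ) ℤ)) (N : ℕ),
    χ.coeff N = (X (true, d) * X (false, d')) ^ N ∧ ∀ (S : Type) [CommRing S]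
      (φ : MvPolynomial (Bool × ℕ) ℤ →+* S) (x x' : S), (un true d).eval₂ φ x = 0 →
      (un false d').eval₂ φ x' = 0 → χ.eval₂ φ (op t x x') = 0 := by
  let A := MvPolynomial (Bool × ℕ) ℤ
  let B₁ := AdjoinRoot (un true d)
  let f := (un false d').map (algebraMap A B₁)
  let B := AdjoinRoot f
  let x : B := algebraMap B₁ B (AdjoinRoot.root _)
  let x' : B := AdjoinRoot.root f
  have h1 := isIntegral_leadingCoeff_smul (un true d) x (by
    rw [Polynomial.aeval_algebraMap_apply, AdjoinRoot.aeval_eq, AdjoinRoot.mk_self, map_zero])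
  have h2 := isIntegral_leadingCoeff_smul (un false d') x' (by
    rw [← Polynomial.aeval_map_algebraMap B₁, AdjoinRoot.aeval_eq, AdjoinRoot.mk_self])
  rw [un_lead] at h1 h2
  have h3 : IsIntegral A ((X (true, d) * X (false, d') : A) • op t x x') := by
    cases t
    · convert (h1.smul (X (false, d') : A)).sub (h2.smul (X (true, d) : A)) using 1
      simp only [op, Algebra.smul_def, map_mul, Bool.false_eq_true, if_false]
      ring
    · convert h1.mul h2 using 1
      simp only [op, Algebra.smul_def, map_mul, if_true]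
      ring
  obtain ⟨p, pm, hp⟩ := h3
  refine ⟨p.comp (Polynomial.C (X (true, d) * X (false, d')) * Polynomial.X), p.natDegree,
    by rw [Polynomial.comp_C_mul_X_coeff, pm.coeff_natDegree, one_mul], fun S _ φ z z' hz hz' => ?_⟩
  let l₁ : B₁ →+* S := AdjoinRoot.lift φ z hz
  have e₁ : l₁.comp (algebraMap A B₁) = φ := RingHom.ext fun a => AdjoinRoot.lift_of hz
  have hf : f.eval₂ l₁ z' = 0 := by rw [Polynomial.eval₂_map, e₁, hz']
  let l : B →+* S := AdjoinRoot.lift l₁ z' hf
  have e₂ : l.comp (algebraMap B₁ B) = l₁ := RingHom.ext fun a => AdjoinRoot.lift_of hf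
  have e : l.comp (algebraMap A B) = φ := by
    rw [IsScalarTower.algebraMap_eq A B₁ B, ← RingHom.comp_assoc, e₂, e₁]
  have a1 : l x = z := (DFunLike.congr_fun e₂ _).trans (AdjoinRoot.lift_root hz)
  have a2 : l x' = z' := AdjoinRoot.lift_root hf
  have a3 : l (op t x x') = op t z z' := by cases t <;> simp [op, a1, a2]
  have := congrArg l hp
  rw [Polynomial.hom_eval₂, e, map_zero, Algebra.smul_def, map_mul, a3, ← RingHom.comp_apply,
    e] at this
  rwa [Polynomial.eval₂_comp, Polynomial.eval₂_mul, Polynomial.eval₂_C, Polynomial.eval₂_X]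

end rl

theorem rl_op (c : ℕ) : ∃ C : ℕ, ∀ (k K ι : Type) [Field k] [Field K] [Algebra k K] (y : ι → K)
    (t : Bool) (x x' : K), Rl k y c x → Rl k y c x' → Rl k y C (op t x x') := by
  choose χ N h1 h2 using univ
  let g : Bool × ℕ × ℕ → ℕ := fun s => (χ s.1 s.2.1 s.2.2).natDegree +
    ((χ s.1 s.2.1 s.2.2).support.sup fun i => ((χ s.1 s.2.1 s.2.2).coeff i).totalDegree) * c
  refine ⟨(Finset.univ ×ˢ Finset.range (c + 1) ×ˢ Finset.range (c + 1)).sup g, ?_⟩
  rintro k K ι _ _ _ y t x x' ⟨R, a, b, r⟩ ⟨R', a', b', r'⟩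
  let s : Bool × ℕ → MvPolynomial ι k := fun j => (if j.1 then R else R').coeff j.2
  have hs : ∀ j, (s j).totalDegree ≤ c := by
    rintro ⟨_ | _, i⟩
    exacts [b'.2 i, b.2 i]
  let φ := (aeval s : MvPolynomial (Bool × ℕ) ℤ →ₐ[ℤ] MvPolynomial ι k).toRingHom
  have le : g (t, R.natDegree, R'.natDegree) ≤ _ := Finset.le_sup (f := g)
    (s := Finset.univ ×ˢ Finset.range (c + 1) ×ˢ Finset.range (c + 1))
    (by simp [b.1, b'.1])
  have u : ∀ b : Bool, (un b (if b then R else R').natDegree).map φ = if b then R else R' :=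
    fun b => by
      conv_rhs => rw [Polynomial.as_sum_range (if b then R else R')]
      simp [un, Polynomial.map_sum, φ, s]
  refine Rl.mono ⟨(χ t R.natDegree R'.natDegree).map φ, fun z => ?_,
    ⟨Polynomial.natDegree_map_le.trans (Nat.le_add_right _ _), fun i => ?_⟩, ?_⟩ le
  · have := congrArg (Polynomial.coeff · (N t R.natDegree R'.natDegree)) z
    simp [h1, φ, s, a, a'] at this
  · rw [Polynomial.coeff_map]
    refine (td_aeval hs _).trans (le_trans (Nat.mul_le_mul_right c ?_) (Nat.le_add_left _ _))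
    by_cases z : i ∈ (χ t R.natDegree R'.natDegree).support
    · exact Finset.le_sup (f := fun i => ((χ t R.natDegree R'.natDegree).coeff i).totalDegree) z
    · simp [Polynomial.notMem_support_iff.1 z]
  · rw [Polynomial.IsRoot, at_, Polynomial.map_map, ← Polynomial.eval₂_eq_eval_map]
    refine h2 _ _ _ K _ x x' ?_ ?_ <;> rw [← Polynomial.eval₂_map]
    · rw [show (un true R.natDegree).map φ = R from u true, Polynomial.eval₂_eq_eval_map]
      exact r
    · rw [show (un false R'.natDegree).map φ = R' from u false, Polynomial.eval₂_eq_eval_map]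
      exact r'

theorem rl_pow (c N : ℕ) : ∃ C : ℕ, ∀ (k K ι : Type) [Field k] [Field K] [Algebra k K] (y : ι → K)
    (x x' : K), Rl k y c x → Rl k y c x' → ∀ q ≤ N, Rl k y C (x * x' ^ q) := by
  induction N with
  | zero => exact ⟨c, fun k K ι _ _ _ y x x' h _ q hq => by simpa [Nat.le_zero.1 hq] using h⟩
  | succ N ih =>
    obtain ⟨C, h⟩ := ih
    obtain ⟨C', h'⟩ := rl_op (max c C)
    refine ⟨max C C', fun k K ι _ _ _ y x x' a b q hq => ?_⟩
    rcases hq.lt_or_eq with l | rfl
    · exact (h k K ι y x x' a b q (Nat.lt_succ_iff.1 l)).mono (le_max_left _ _)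
    · have := h' k K ι y true _ _ ((h k K ι y x x' a b N le_rfl).mono (le_max_right _ _))
        (b.mono (le_max_left _ _))
      rw [pow_succ, ← mul_assoc]
      exact this.mono (le_max_right _ _)

section ext

variable {k K Ω ι : Type} [Field k] [Field K] [Field Ω] [Algebra k K] [Algebra k Ω]

theorem at_map (τ : K →ₐ[k] Ω) (y : ι → K) (R : Polynomial (MvPolynomial ι k)) :
    (at_ y R).map (τ : K →+* Ω) = at_ (fun j => τ (y j)) R := by
  rw [at_, Polynomial.map_map]
  congr 1
  exact RingHom.ext fun p => comp_aeval_apply _ _ _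

theorem at_root (τ : K →ₐ[k] Ω) {y : ι → K} {R : Polynomial (MvPolynomial ι k)} {x : K}
    (h : (at_ y R).IsRoot x) : (at_ (fun j => τ (y j)) R).IsRoot (τ x) :=
  at_map τ y R ▸ h.map (f := (τ : K →+* Ω))

theorem at_ne {y : ι → K} (hy : AlgebraicIndependent k y) {R : Polynomial (MvPolynomial ι k)}
    (h : R ≠ 0) : at_ y R ≠ 0 := (Polynomial.map_ne_zero_iff hy).2 h

theorem at_deg {y : ι → K} (hy : AlgebraicIndependent k y) {R : Polynomial (MvPolynomial ι k)}
    (h : R ≠ 0) {x : K} (r : (at_ y R).IsRoot x) : R.natDegree ≠ 0 := fun z => by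
  rw [Polynomial.eq_C_of_natDegree_eq_zero z] at h r
  have := at_ne hy h
  simp only [at_, Polynomial.map_C, Polynomial.IsRoot, Polynomial.eval_C] at this r
  exact this (by rw [r, map_zero])

theorem exists_rel {y : ι → K} (ha : Algebra.IsAlgebraic (Algebra.adjoin k (range y)) K) (z : K) :
    ∃ R : Polynomial (MvPolynomial ι k), R ≠ 0 ∧ (at_ y R).IsRoot z := by
  obtain ⟨p, p0, hp⟩ := ha.isAlgebraic z
  obtain ⟨R, hR⟩ : p.map (algebraMap _ K) ∈
      Polynomial.lifts (aeval y : MvPolynomial ι k →ₐ[k] K).toRingHom :=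
    (Polynomial.lifts_iff_coeff_lifts _).2 fun i => by
      rw [Polynomial.coeff_map]
      exact (Algebra.adjoin_range_eq_range_aeval k y).le (p.coeff i).2
  have hR' : at_ y R = p.map (algebraMap _ K) := hR
  refine ⟨R, fun z => p0 (Polynomial.map_injective (algebraMap _ K) Subtype.val_injective ?_), ?_⟩
  · rw [← hR', z, at_, Polynomial.map_zero, Polynomial.map_zero]
  · rwa [hR', Polynomial.IsRoot, ← Polynomial.eval₂_eq_eval_map]

theorem ext_aux [IsAlgClosed Ω] {A : Type} [CommRing A] [IsDomain A] [IsGCDMonoid A] {α : A →+* K}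
    {β : A →+* Ω} (iα : Function.Injective α) (iβ : Function.Injective β)
    (ha : ∀ z, ∃ p : Polynomial A, p ≠ 0 ∧ (p.map α).IsRoot z) {R : Polynomial A}
    (hR : Irreducible R) (R0 : R.natDegree ≠ 0) {x : K} (r : (R.map α).IsRoot x) {ρ : Ω}
    (r' : (R.map β).IsRoot ρ) : ∃ τ : K →+* Ω, (∀ p, τ (α p) = β p) ∧ τ x = ρ := by
  let F := FractionRing A
  obtain ⟨a, ea⟩ : ∃ a : F →+* K, a.comp (algebraMap A F) = α :=
    ⟨IsFractionRing.lift iα, RingHom.ext (IsFractionRing.lift_algebraMap iα)⟩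
  obtain ⟨b, eb⟩ : ∃ b : F →+* Ω, b.comp (algebraMap A F) = β :=
    ⟨IsFractionRing.lift iβ, RingHom.ext (IsFractionRing.lift_algebraMap iβ)⟩
  let _ := a.toAlgebra
  let _ := b.toAlgebra
  have ka : ∀ (p : Polynomial A) (z : K),
      Polynomial.aeval z (p.map (algebraMap A F)) = (p.map α).eval z := fun p z => by
    rw [Polynomial.aeval_def, Polynomial.eval₂_map, Polynomial.eval₂_eq_eval_map, ← ea]
    rfl
  have kb : ∀ (p : Polynomial A) (z : Ω),
      Polynomial.aeval z (p.map (algebraMap A F)) = (p.map β).eval z := fun p z => by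
    rw [Polynomial.aeval_def, Polynomial.eval₂_map, Polynomial.eval₂_eq_eval_map, ← eb]
    rfl
  have alg : ∀ z : K, IsIntegral F z := fun z => by
    obtain ⟨p, p0, hp⟩ := ha z
    exact IsAlgebraic.isIntegral ⟨p.map (algebraMap A F),
      (Polynomial.map_ne_zero_iff (IsFractionRing.injective A F)).2 p0, (ka p z).trans hp⟩
  have irr := (Polynomial.IsPrimitive.irreducible_iff_irreducible_map_fraction_map (K := F)
    (hR.isPrimitive R0)).1 hR
  have m := minpoly.eq_of_irreducible (x := x) irr ((ka R x).trans r)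
  obtain ⟨φ, hφ⟩ := IntermediateField.exists_algHom_of_splits_of_aeval (F := F) (K := Ω)
    (fun z => ⟨alg z, IsAlgClosed.splits _⟩) (x := x) (y := ρ) (by
      rw [← m, map_mul]
      exact mul_eq_zero_of_left ((kb R ρ).trans r') _)
  exact ⟨φ, fun p => (congrArg φ (DFunLike.congr_fun ea p).symm).trans
    ((φ.commutes _).trans (DFunLike.congr_fun eb p)), hφ⟩

/-- the roots of an irreducible relation give embeddings -/
theorem ext_root [IsAlgClosed Ω] {y : ι → K} (hy : AlgebraicIndependent k y)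
    (ha : Algebra.IsAlgebraic (Algebra.adjoin k (range y)) K) {η : ι → Ω}
    (hη : AlgebraicIndependent k η) {R : Polynomial (MvPolynomial ι k)} (hR : Irreducible R)
    {x : K} (r : (at_ y R).IsRoot x) {ρ : Ω} (r' : (at_ η R).IsRoot ρ) :
    ∃ τ : K →ₐ[k] Ω, (∀ j, τ (y j) = η j) ∧ τ x = ρ := by
  obtain ⟨τ, h, e⟩ := ext_aux hy hη (exists_rel ha) hR (at_deg hy hR.ne_zero r) r r'
  exact ⟨{ τ with commutes' := fun c => by simpa using h (C c) }, fun j => by simpa using h (X j), e⟩

/-- the nonzero coefficients -/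
def cfs (R : Polynomial (MvPolynomial ι k)) : Finset (MvPolynomial ι k) := R.coeffs

/-- a bounded family -/
def Fam (c : ℕ) (F : Finset (MvPolynomial ι k)) : Prop :=
  F.card ≤ c ∧ ∀ f ∈ F, f ≠ 0 ∧ f.totalDegree ≤ c

/-- the same values on `F` -/
def Sm (w : AbsoluteValue Ω ℝ) (F : Finset (MvPolynomial ι k)) (η y : ι → Ω) : Prop :=
  ∀ f ∈ F, w (aeval η f) = w (aeval y f)

theorem Bd.fam {c : ℕ} {R : Polynomial (MvPolynomial ι k)} (h : Bd c R) : Fam (c + 1) (cfs R) := by
  refine ⟨(@Finset.card_image_le _ _ _ _ (Classical.decEq _)).trans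
    (R.card_supp_le_succ_natDegree.trans (Nat.succ_le_succ h.1)), fun f hf => ?_⟩
  obtain ⟨i, hi, rfl⟩ := Polynomial.mem_coeffs_iff.1 hf
  exact ⟨Polynomial.mem_support_iff.1 hi, (h.2 i).trans (Nat.le_succ c)⟩

variable {w : AbsoluteValue Ω ℝ}

theorem Sm.coeff {R : Polynomial (MvPolynomial ι k)} {η y : ι → Ω} (h : Sm w (cfs R) η y) (i : ℕ) :
    w ((at_ η R).coeff i) = w ((at_ y R).coeff i) := by
  rw [Polynomial.coeff_map, Polynomial.coeff_map]
  by_cases z : R.coeff i = 0
  · simp [z]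
  · exact h _ (Polynomial.coeff_mem_coeffs z)

theorem exists_exp (S : Finset (ℝ × ℝ)) {a b : ℝ} (ha : 0 < a) (hb : 0 < b) :
    ∃ q ≤ S.card, ∀ s ∈ S, 0 < s.2 → s.1 * s.2 ^ q = a * b ^ q → s = (a, b) := by
  by_contra h
  push Not at h
  choose! f h1 h2 h3 h4 using h
  obtain ⟨p, hp, q, hq, pq, e⟩ := Finset.exists_ne_map_eq_of_card_lt_of_maps_to
    (s := Finset.range (S.card + 1)) (t := S) (by simp) (f := f)
    fun q hq => h1 q (Nat.lt_succ_iff.1 (Finset.mem_range.1 hq))
  have hp' := Nat.lt_succ_iff.1 (Finset.mem_range.1 hp)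
  have hq' := Nat.lt_succ_iff.1 (Finset.mem_range.1 hq)
  have a1 := h3 p hp'
  have a2 := h3 q hq'
  have s0 := h2 q hq'
  rw [e] at a1
  have c : ∀ n : ℕ, (f q).1 * (f q).2 ^ n = a * b ^ n → ((f q).2 / b) ^ n * (f q).1 = a :=
    fun n hn => by
      rw [div_pow]
      field_simp
      linarith
  have f0 : (f q).1 ≠ 0 := fun z => by
    rw [z, zero_mul] at a2
    exact (by positivity : a * b ^ q ≠ 0) a2.symm
  have e1 : (f q).2 / b = 1 := by_contra fun n => pq (pow_right_injective₀ (by positivity) n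
    (mul_right_cancel₀ f0 ((c p a1).trans (c q a2).symm)))
  have := c q a2
  rw [e1, one_pow, one_mul] at this
  exact h4 q hq' (Prod.ext this ((div_eq_one_iff_eq hb.ne').1 e1))

end ext

/-- a statement for all embeddings of algebraic extensions of fields of rational functions -/
def ForE (A : ∀ (k K Ω ι : Type) [Field k] [Field K] [Field Ω] [Algebra k K] [Algebra k Ω],
    AbsoluteValue Ω ℝ → (K →ₐ[k] Ω) → (ι → K) → Prop) : Prop :=
  ∀ (k K Ω ι : Type) [Field k] [Field K] [Field Ω] [Algebra k K] [Algebra k Ω] [IsAlgClosed Ω]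
    [Fintype ι] (w : AbsoluteValue Ω ℝ) (σ : K →ₐ[k] Ω) (y : ι → K), IsNonarchimedean w →
    AlgebraicIndependent k y → Algebra.IsAlgebraic (Algebra.adjoin k (range y)) K →
    A k K Ω ι w σ y

theorem merge (m c : ℕ) : ∃ C : ℕ, ForE fun k K Ω ι _ _ _ _ _ w σ y => ∀ B : Finset K, B.card ≤ m →
    (∀ b ∈ B, b ≠ 0 ∧ Rl k y c b) → ∃ (θ : K) (F : Finset (MvPolynomial ι k)), θ ≠ 0 ∧
      Rl k y C θ ∧ Fam C F ∧ ∀ τ : K →ₐ[k] Ω, Sm w F (fun j => τ (y j)) (fun j => σ (y j)) →
        w (τ θ) = w (σ θ) → ∀ b ∈ B, w (τ b) = w (σ b) := by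
  classical
  induction m with
  | zero =>
    refine ⟨1, fun k K Ω ι _ _ _ _ _ _ _ w σ y _ _ _ B hB _ => ⟨1, ∅, one_ne_zero, ?_,
      ⟨by simp, by simp⟩, by simp [Finset.card_eq_zero.1 (Nat.le_zero.1 hB)]⟩⟩
    simpa using rl_pol y (c := 0) (p := (1 : MvPolynomial ι k)) (by simp)
  | succ m ih =>
    obtain ⟨C, h⟩ := ih
    obtain ⟨C', h'⟩ := rl_pow (max c C) (2 * c * (2 * C))
    refine ⟨C' + (C + (2 * c + 1) + (2 * C + 1)), fun k K Ω ι _ _ _ _ _ _ _ w σ y hw hy ha B hB
      hb => ?_⟩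
    rcases B.eq_empty_or_nonempty with rfl | ⟨b, bB⟩
    · obtain ⟨θ, F, a1, a2, a3, -⟩ := h k K Ω ι w σ y hw hy ha ∅ (by simp) (by simp)
      exact ⟨θ, F, a1, a2.mono (by omega), ⟨a3.1.trans (by omega), fun f hf =>
        ⟨(a3.2 f hf).1, (a3.2 f hf).2.trans (by omega)⟩⟩, by simp⟩
    obtain ⟨θ, F, a1, a2, a3, a4⟩ := h k K Ω ι w σ y hw hy ha (B.erase b)
      (by rw [Finset.card_erase_of_mem bB]; omega) fun x hx => hb x (Finset.mem_of_mem_erase hx)
    obtain ⟨b0, rb⟩ := hb b bB
    obtain ⟨R, iR, dR, rR⟩ := rb.irr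
    obtain ⟨T, iT, dT, rT⟩ := a2.irr
    let V : Polynomial (MvPolynomial ι k) → Finset ℝ := fun R =>
      (at_ (fun j => σ (y j)) R).roots.toFinset.image w
    have cV : ∀ R, (V R).card ≤ R.natDegree := fun R => Finset.card_image_le.trans
      ((Multiset.toFinset_card_le _).trans ((Polynomial.card_roots' _).trans
        Polynomial.natDegree_map_le))
    have mV : ∀ (τ : K →ₐ[k] Ω) R x, R ≠ 0 → (at_ y R).IsRoot x →
        Sm w (cfs R) (fun j => τ (y j)) (fun j => σ (y j)) → w (τ x) ∈ V R := fun τ R x R0 r s => by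
      obtain ⟨ρ, h1, h2⟩ := np hw (at_ne (hy.map' (f := τ) τ.injective) R0) s.coeff (at_root τ r)
      exact Finset.mem_image.2 ⟨ρ, Multiset.mem_toFinset.2 ((Polynomial.mem_roots
        (at_ne (hy.map' (f := σ) σ.injective) R0)).2 h1), h2⟩
    obtain ⟨q, hq, e⟩ := exists_exp (V R ×ˢ V T) (w.pos ((map_ne_zero σ).2 b0))
      (w.pos ((map_ne_zero σ).2 a1))
    rw [Finset.card_product] at hq
    refine ⟨b * θ ^ q, F ∪ cfs R ∪ cfs T, mul_ne_zero b0 (pow_ne_zero _ a1),
      (h' k K ι y b θ (rb.mono (le_max_left _ _)) (a2.mono (le_max_right _ _)) q (hq.trans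
        (Nat.mul_le_mul ((cV R).trans dR.1) ((cV T).trans dT.1)))).mono (by omega), ⟨?_, ?_⟩,
      fun τ s hθ x hx => ?_⟩
    · have := Finset.card_union_le (F ∪ cfs R) (cfs T)
      have := Finset.card_union_le F (cfs R)
      have := a3.1
      have := dR.fam.1
      have := dT.fam.1
      omega
    · intro f hf
      simp only [Finset.mem_union] at hf
      rcases hf with (hf | hf) | hf
      exacts [⟨(a3.2 f hf).1, (a3.2 f hf).2.trans (by omega)⟩,
        ⟨(dR.fam.2 f hf).1, (dR.fam.2 f hf).2.trans (by omega)⟩,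
        ⟨(dT.fam.2 f hf).1, (dT.fam.2 f hf).2.trans (by omega)⟩]
    · have := e (w (τ b), w (τ θ)) (Finset.mem_product.2 ⟨mV τ R b iR.ne_zero rR fun f hf =>
        s f (by simp [hf]), mV τ T θ iT.ne_zero rT fun f hf => s f (by simp [hf])⟩)
        (w.pos ((map_ne_zero τ).2 a1)) (by simpa only [map_mul, map_pow] using hθ)
      by_cases xb : x = b
      · exact xb ▸ congrArg Prod.fst this
      · exact a4 τ (fun f hf => s f (by simp [hf])) (congrArg Prod.snd this) x
          (Finset.mem_erase.2 ⟨xb, hx⟩)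

/-- the transport of values -/
theorem transport (c : ℕ) : ∃ C : ℕ, ForE fun k K Ω ι _ _ _ _ _ w σ y => ∀ B : Finset K,
    B.card ≤ c → (∀ b ∈ B, b ≠ 0 ∧ Rl k y c b) → ∃ F : Finset (MvPolynomial ι k), Fam C F ∧
      ∀ η : ι → Ω, AlgebraicIndependent k η → Sm w F η (fun j => σ (y j)) →
        ∃ τ : K →ₐ[k] Ω, (∀ j, τ (y j) = η j) ∧ ∀ b ∈ B, w (τ b) = w (σ b) := by
  classical
  obtain ⟨C, h⟩ := merge c c
  refine ⟨C + (2 * C + 1), fun k K Ω ι _ _ _ _ _ _ _ w σ y hw hy ha B hB hb => ?_⟩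
  obtain ⟨θ, F, -, a2, a3, a4⟩ := h k K Ω ι w σ y hw hy ha B hB hb
  obtain ⟨T, iT, dT, rT⟩ := a2.irr
  refine ⟨F ∪ cfs T, ⟨(Finset.card_union_le _ _).trans (add_le_add a3.1 dT.fam.1), fun f hf => ?_⟩,
    fun η hη s => ?_⟩
  · rcases Finset.mem_union.1 hf with hf | hf
    exacts [⟨(a3.2 f hf).1, (a3.2 f hf).2.trans (by omega)⟩,
      ⟨(dT.fam.2 f hf).1, (dT.fam.2 f hf).2.trans (by omega)⟩]
  · obtain ⟨ρ, h1, h2⟩ := np hw (at_ne (hy.map' (f := σ) σ.injective) iT.ne_zero)
      (fun i => (Sm.coeff (fun f hf => s f (by simp [hf])) i).symm) (at_root σ rT)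
    obtain ⟨τ, e, e'⟩ := ext_root hy ha hη iT rT h1
    refine ⟨τ, e, a4 τ (fun f hf => ?_) (by rw [e', h2])⟩
    rw [funext e]
    exact s f (by simp [hf])

end Vale.Agent.P283B.Mono
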