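import Vale.Agent.P283B.MONO.Rel
import Vale.Agent.P283B.ACC.Wv
import Vale.Agent.P287D.Api.Int
import Vale.Agent.P287D.Gf.Six
import Vale.Agent.P287D.Gf.Vp
import Vale.Agent.P287D.Cb.Row
import Vale.Agent.P287D.Mm.Eng
import Vale.Agent.P287D.Gm.Unit

/-!
# P283B, block MONO: sizes of functions on a fibration of Fano type
-/

set_option linter.unusedVariables false

open Set MvPolynomial
open IntermediateField (adjoin)
open Vale.Agent.P287D

noncomputable section

namespace Vale.Agent.P283B.Mo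

section alg

variable {F E : Type} [Field F] [Field E] [Algebra F E] {e : ℕ}

variable (F) in
/-- sizes of the elements of `E` over `F` -/
structure Siz (V : ℕ) (S : ℕ → E → Prop) (y : Fin e → E) : Prop where
  ind : AlgebraicIndependent F y
  mono : ∀ {a b f}, a ≤ b → S a f → S b f
  mul : ∀ {a b f g}, S a f → S b g → S (a + b) (f * g)
  add : ∀ {a b f g}, S a f → S b g → S (a + b) (f + g)
  inv : ∀ {a f}, S a f → S a f⁻¹
  pol : ∀ {k} (p : MvPolynomial (Fin e) F), p.totalDegree ≤ k → S k (aeval y p)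
  deg : ∀ (x : Fin e → E) (c : Fin e → ℕ), AlgebraicIndependent F x → (∀ i, S (c i) (x i)) →
    FiniteDimensional (adjoin F (range x)) E ∧ Module.finrank (adjoin F (range x)) E ≤ V * ∏ i, c i

namespace Siz

variable {V : ℕ} {S : ℕ → E → Prop} {y : Fin e → E} (h : Siz F V S y)
include h

theorem cst (a : F) : S 0 (algebraMap F E a) := by simpa using h.pol (C a) (k := 0) (by simp)

theorem one : S 0 1 := by simpa using h.cst 1

theorem var (i : Fin e) : S 1 (y i) := by simpa using h.pol (X i) (k := 1) (by simp)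

theorem neg {a : ℕ} {f : E} (k : S a f) : S a (-f) := by simpa using h.mul (h.cst (-1)) k

theorem sub {a b : ℕ} {f g : E} (k : S a f) (l : S b g) : S (a + b) (f - g) :=
  sub_eq_add_neg f g ▸ h.add k (h.neg l)

theorem div {a b : ℕ} {f g : E} (k : S a f) (l : S b g) : S (a + b) (f / g) :=
  div_eq_mul_inv f g ▸ h.mul k (h.inv l)

theorem pow {a : ℕ} {f : E} (k : S a f) (r : ℕ) : S (r * a) (f ^ r) := by
  induction r with
  | zero => simpa using h.one
  | succ r ih => rw [pow_succ, add_mul, one_mul]; exact h.mul ih k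

theorem prod {ι : Type} (s : Finset ι) {a : ι → ℕ} {f : ι → E} (k : ∀ i ∈ s, S (a i) (f i)) :
    S (∑ i ∈ s, a i) (∏ i ∈ s, f i) := by
  classical
  induction s using Finset.induction_on with
  | empty => simpa using h.one
  | insert i s hi ih =>
    rw [Finset.sum_insert hi, Finset.prod_insert hi]
    exact h.mul (k i (by simp)) (ih fun j hj => k j (by simp [hj]))

theorem sum {ι : Type} (s : Finset ι) {a : ι → ℕ} {f : ι → E} (k : ∀ i ∈ s, S (a i) (f i)) :
    S (∑ i ∈ s, a i) (∑ i ∈ s, f i) := by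
  classical
  induction s using Finset.induction_on with
  | empty => simpa using h.cst 0
  | insert i s hi ih =>
    rw [Finset.sum_insert hi, Finset.sum_insert hi]
    exact h.add (k i (by simp)) (ih fun j hj => k j (by simp [hj]))

theorem deg_y : FiniteDimensional (adjoin F (range y)) E ∧
    Module.finrank (adjoin F (range y)) E ≤ V := by
  simpa using h.deg y (fun _ => 1) h.ind h.var

/-- the irreducible relation, symmetric form -/
theorem rel (a : Fin (e + 1) → E) (c : Fin (e + 1) → ℕ) (ha : AlgebraicIndependent F (Fin.tail a))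
    (hc : ∀ i, S (c i) (a i)) : ∃ R : MvPolynomial (Fin (e + 1)) F, Irreducible R ∧
      aeval a R = 0 ∧ 0 < degreeOf 0 R ∧ (∀ o, degreeOf o R ≤ V * ∏ i, c (o.succAbove i)) ∧
      ∀ G, aeval a G = 0 → R ∣ G :=
  Mo.rel a ha _ fun o k => h.deg _ _ k fun _ => hc _

/-- the irreducible relation of `f` over `F[x]`: the degree in `f` does not depend on the size of
`f`, the degree of the coefficients is linear in it -/
theorem relP {x : Fin e → E} (hx : AlgebraicIndependent F x) {c k : ℕ} (hc : ∀ i, S c (x i))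
    {f : E} (hf : S k f) : ∃ R : Polynomial (MvPolynomial (Fin e) F), Irreducible R ∧
      R.eval₂ (aeval x : MvPolynomial (Fin e) F →ₐ[F] E).toRingHom f = 0 ∧ 0 < R.natDegree ∧
      R.natDegree ≤ V * c ^ e ∧ (∀ i j, degreeOf j (R.coeff i) ≤ V * (k * c ^ (e - 1))) ∧
      ∀ i, (R.coeff i).totalDegree ≤ e * (V * (k * c ^ (e - 1))) := by
  obtain ⟨R, a, b, d, g, -⟩ := h.rel (Fin.cons f x) (Fin.cons k fun _ => c) hx
    (Fin.cases hf hc)
  have u : ∀ i j, degreeOf j ((finSuccEquiv F e R).coeff i) ≤ V * (k * c ^ (e - 1)) := fun i j => by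
    refine (degreeOf_coeff_finSuccEquiv R j i).trans ((g _).trans_eq (congrArg _ ?_))
    rcases e with _ | e
    · exact j.elim0
    · rw [Fin.prod_univ_succ, Fin.succ_succAbove_zero]
      simp
  refine ⟨finSuccEquiv F e R, a.map _, (aeval_fin _ R).trans b, natDegree_finSuccEquiv R ▸ d,
    natDegree_finSuccEquiv R ▸ (g 0).trans_eq (by simp), u, fun i => ?_⟩
  refine Finset.sup_le fun m hm => ?_
  rw [Finsupp.sum_fintype _ _ fun _ => rfl]
  simpa using Finset.sum_le_card_nsmul Finset.univ (fun j => m j) _ fun j _ =>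
    (monomial_le_degreeOf j hm).trans (u i j)

/-- the irreducible relation of `f` over `F[x]`, with the variables indexed by an option -/
theorem relO {x : Fin e → E} (hx : AlgebraicIndependent F x) {c k : ℕ} (hc : ∀ i, S c (x i))
    {f : E} (hf : S k f) : ∃ R : MvPolynomial (Option (Fin e)) F, Irreducible R ∧
      aeval (fun o => Option.elim o f x) R = 0 ∧ 0 < degreeOf none R ∧
      degreeOf none R ≤ V * c ^ e ∧ (∀ j, degreeOf (some j) R ≤ V * (k * c ^ (e - 1))) ∧
      R.totalDegree ≤ V * c ^ e + e * (V * (k * c ^ (e - 1))) := by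
  obtain ⟨R, a, b, d, g, -⟩ := h.rel (Fin.cons f x) (Fin.cons k fun _ => c) hx
    (Fin.cases hf hc)
  have z := fun i => degreeOf_rename_of_injective (p := R) (_root_.finSuccEquiv e).injective i
  have u : degreeOf none (rename (_root_.finSuccEquiv e) R) ≤ V * c ^ e := by
    rw [← finSuccEquiv_zero, z]
    exact (g 0).trans_eq (by simp)
  have v : ∀ j, degreeOf (some j) (rename (_root_.finSuccEquiv e) R) ≤ V * (k * c ^ (e - 1)) :=
    fun j => by
      rw [← finSuccEquiv_succ, z]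
      refine (g _).trans_eq (congrArg _ ?_)
      rcases e with _ | e
      · exact j.elim0
      · rw [Fin.prod_univ_succ, Fin.succ_succAbove_zero]
        simp
  refine ⟨rename (_root_.finSuccEquiv e) R, a.map (renameEquiv F (_root_.finSuccEquiv e)), ?_,
    by rwa [← finSuccEquiv_zero, z], u, v, Finset.sup_le fun m hm => ?_⟩
  · rw [aeval_rename, ← b]
    exact congrArg (aeval · R) (funext fun i => Fin.cases (by simp) (fun i => by simp) i)
  · rw [Finsupp.sum_fintype _ _ fun _ => rfl, Fintype.sum_option]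
    refine add_le_add ((monomial_le_degreeOf _ hm).trans u) ?_
    simpa using Finset.sum_le_card_nsmul Finset.univ (fun j => m (some j)) _ fun j _ =>
      (monomial_le_degreeOf _ hm).trans (v j)

end Siz

end alg

variable {K K' : Type} [Field K] [Algebra ℂ K] [Field K'] [Algebra ℂ K'] {n e : ℕ}
  {L : IntermediateField ℂ K} {φ : K →+* K'}

/-! ### the generic fibre, algebra -/

theorem map_aeval (h : Ext L φ) {σ : Type} (y : σ → K) (p : MvPolynomial σ L) :
    φ (aeval y p) = aeval (fun i => φ (y i)) (map h.j p) := by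
  induction p using MvPolynomial.induction_on with
  | C a => simpa using (h.j_spec a).symm
  | add p q hp hq => simp only [map_add, hp, hq]
  | mul_X p i hp => simp only [map_mul, hp, aeval_X, map_X]

theorem ind_of_map (h : Ext L φ) {σ : Type} {y : σ → K}
    (hy : AlgebraicIndependent ℂ fun i => φ (y i)) : AlgebraicIndependent L y :=
  algebraicIndependent_iff.2 fun p hp => map_injective _ h.j.injective
    ((algebraicIndependent_iff.1 hy _ (by rw [← map_aeval h, hp, map_zero])).trans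
      (map_zero _).symm)

theorem lin_map (h : Ext L φ) {σ ι : Type} {x : σ → K} (hx : AlgebraicIndependent L x) {v : ι → K}
    (hv : LinearIndependent (adjoin L (range x)) v) :
    LinearIndependent (adjoin ℂ (range fun i => φ (x i))) fun i => φ (v i) := by
  classical
  let ψ : MvPolynomial σ L →ₐ[L] adjoin L (range x) :=
    aeval fun i => ⟨x i, IntermediateField.subset_adjoin _ _ ⟨i, rfl⟩⟩
  have c : ∀ p, (ψ p : K) = aeval x p := fun p =>
    (comp_aeval_apply (f := _) (IntermediateField.val _) p)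
  have a := Pb.dis_gen h (linearIndependent_smul ((basisMonomials σ L).linearIndependent.map'
    ψ.toLinearMap (LinearMap.ker_eq_bot.2 fun p q k => hx (by
      change aeval x p = aeval x q
      rw [← c, ← c]
      exact congrArg _ k))) hv)
  refine linearIndependent_iff_finset_linearIndependent.2 fun s =>
    Fintype.linearIndependent_iff.2 fun r hr i => ?_
  obtain ⟨q, p, u, w⟩ := den (fun i => φ (x i)) r
  have z : ∑ t ∈ (Finset.univ.biUnion fun j => (p j).support) ×ˢ (Finset.univ : Finset s),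
      coeff t.1 (p t.2) • φ ((ψ (monomial t.1 1) : K) * v t.2) = 0 := by
    have := congrArg (· * aeval (fun i => φ (x i)) q) hr
    simp only [Finset.sum_mul, zero_mul] at this
    rw [Finset.sum_product_right, ← this]
    refine Finset.sum_congr rfl fun j _ => ?_
    rw [Algebra.smul_def, mul_right_comm]
    change _ = (r j : K') * _ * φ (v j)
    rw [← w, aeval_def, eval₂_eq, Finset.sum_mul]
    refine (Finset.sum_subset (Finset.subset_biUnion_of_mem (fun j => (p j).support)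
      (Finset.mem_univ j)) fun m _ k => by simp [notMem_support_iff.1 k]).symm.trans
      (Finset.sum_congr rfl fun m _ => ?_)
    simp [c, aeval_monomial, Algebra.smul_def, Finsupp.prod, mul_assoc]
  have b := a.comp (fun t : (σ →₀ ℕ) × s => (t.1, (t.2 : ι))) fun t t' k =>
    Prod.ext (Prod.ext_iff.1 k).1 (Subtype.ext (Prod.ext_iff.1 k).2)
  have d : p i = 0 := MvPolynomial.ext _ _ fun m => by_contra fun k => k
    (linearIndependent_iff'.1 b _ (fun t => coeff t.1 (p t.2)) z (m, i) (Finset.mem_product.2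
      ⟨Finset.mem_biUnion.2 ⟨i, Finset.mem_univ _, mem_support_iff.2 k⟩, Finset.mem_univ _⟩))
  have := w i
  rw [d, map_zero] at this
  exact Subtype.ext ((mul_eq_zero.1 this.symm).resolve_right u)

theorem rank_map (h : Ext L φ) {σ : Type} {x : σ → K} (hx : AlgebraicIndependent L x)
    [FiniteDimensional (adjoin ℂ (range fun i => φ (x i))) K'] :
    FiniteDimensional (adjoin L (range x)) K ∧ Module.finrank (adjoin L (range x)) K ≤
      Module.finrank (adjoin ℂ (range fun i => φ (x i))) K' := by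
  let b := Module.Basis.ofVectorSpace (adjoin L (range x)) K
  have a := lin_map h hx b.linearIndependent
  have := a.finite
  have := Fintype.ofFinite (Module.Basis.ofVectorSpaceIndex (adjoin L (range x)) K)
  exact ⟨.of_basis b, Module.finrank_eq_card_basis b ▸ a.fintype_card_le_finrank⟩

/-! ### sizes on one field -/

/-- a quotient of sections of `k N` -/
def Sz (N : BD K) (k : ℕ) (f : K) : Prop :=
  ∃ b, b ≠ 0 ∧ Sec ((k : ℝ) • N) b ∧ Sec ((k : ℝ) • N) (f * b)

section sz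

variable {N : BD K} {a b : ℕ} {f g : K}

theorem sec_mul (h : Sec ((a : ℝ) • N) f) (k : Sec ((b : ℝ) • N) g) :
    Sec (((a + b : ℕ) : ℝ) • N) (f * g) := by
  rw [Nat.cast_add, add_smul]; exact h.mul k

theorem sec_up (h0 : 0 ≤ N) (e : a ≤ b) (h : Sec ((a : ℝ) • N) f) : Sec ((b : ℝ) • N) f :=
  h.mono (smul_le_smul_of_nonneg_right (Nat.cast_le.2 e) h0)

theorem Sz.mono (h0 : 0 ≤ N) (e : a ≤ b) (h : Sz N a f) : Sz N b f :=
  let ⟨c, x, y, z⟩ := h
  ⟨c, x, sec_up h0 e y, sec_up h0 e z⟩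

theorem Sz.mul (h : Sz N a f) (k : Sz N b g) : Sz N (a + b) (f * g) :=
  let ⟨c, x, y, z⟩ := h
  let ⟨d, u, v, w⟩ := k
  ⟨c * d, mul_ne_zero x u, sec_mul y v, mul_mul_mul_comm f c g d ▸ sec_mul z w⟩

theorem Sz.add (h : Sz N a f) (k : Sz N b g) : Sz N (a + b) (f + g) :=
  let ⟨c, x, y, z⟩ := h
  let ⟨d, u, v, w⟩ := k
  ⟨c * d, mul_ne_zero x u, sec_mul y v, by
    rw [show (f + g) * (c * d) = f * c * d + c * (g * d) by ring]
    exact (sec_mul z v).add (sec_mul y w)⟩

theorem Sz.inv (h : Sz N a f) : Sz N a f⁻¹ := by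
  by_cases k : f = 0
  · rwa [k, inv_zero, ← k]
  · obtain ⟨c, x, y, z⟩ := h
    exact ⟨f * c, mul_ne_zero k x, z, by rwa [inv_mul_cancel_left₀ k]⟩

theorem sz_of_sec (h0 : 0 ≤ N) (h : Sec ((a : ℝ) • N) f) : Sz N a f :=
  ⟨1, one_ne_zero, sec_one.2 (smul_nonneg (Nat.cast_nonneg a) h0), by rwa [mul_one]⟩

theorem sec_aeval (h0 : 0 ≤ N) {σ : Type} {y : σ → K} (hy : ∀ i, Sec N (y i))
    {p : MvPolynomial σ ℂ} (hp : p.totalDegree ≤ a) : Sec ((a : ℝ) • N) (aeval y p) := by
  classical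
  rw [aeval_def, eval₂_eq]
  refine mem_H0.1 (Submodule.sum_mem _ fun m hm => ?_)
  rw [← Algebra.smul_def]
  refine Submodule.smul_mem _ _ (mem_H0.2 (sec_up h0 ((le_totalDegree hm).trans hp) ?_))
  rw [Finsupp.sum]
  induction m.support using Finset.induction_on with
  | empty => simpa using sec_one.2 le_rfl
  | insert i s hi ih =>
    rw [Finset.sum_insert hi, Finset.prod_insert hi]
    exact sec_mul ((hy i).pow _) ih

/-- **DEG** -/
theorem rank_le (hK : FF K e) (hN : Nef N) {x : Fin e → K} (hx : AlgebraicIndependent ℂ x)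
    {c : Fin e → ℕ} (h : ∀ i, Sz N (c i) (x i)) : FiniteDimensional (adjoin ℂ (range x)) K ∧
      (Module.finrank (adjoin ℂ (range x)) K : ℝ) ≤ (∏ i, c i : ℕ) * vol e N := by
  classical
  refine ⟨Pb.fin_of_ff (Gm.Un.ff_adjoin hx) hK, ?_⟩
  have b := Gm.unit e K hK x hx
  simp only [mx_pld] at b
  have d := (In.hy.row e K hK).mono (a := fun i => pld (x i)) (b := fun i => (c i : ℝ) • N)
    (fun i => (smp_pld _).nef) (fun i => hN.smul (Nat.cast_nonneg _)) fun i => by
      obtain ⟨g, u, v, w⟩ := h i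
      have := pld_div_le w v u
      rw [mul_div_cancel_right₀ _ u] at this
      exact ((Eff.of_nonneg (sub_nonneg.2 this)).congr (by
        simpa using neg_mem (dv_mem_Prn g))).psef
  rw [(In.hy.row e K hK).ml.smul_all _ (fun _ => N) fun _ => hN.car] at d
  push_cast
  exact b.symm.trans_le d

end sz

/-- the sizes defined by a nef divisor on the generic fibre -/
theorem siz (h : Ext L φ) (hK : FF K' e) {N : BD K'} (h0 : 0 ≤ N) (hN : Nef N) {V : ℕ}
    (hV : vol e N ≤ V) {y : Fin e → K} (hy : AlgebraicIndependent L y) (s : ∀ i, Sec N (φ (y i))) :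
    Siz L V (fun k f => Sz N k (φ f)) y where
  ind := hy
  mono := Sz.mono h0
  mul a b := map_mul φ _ _ ▸ a.mul b
  add a b := map_add φ _ _ ▸ a.add b
  inv a := map_inv₀ φ _ ▸ a.inv
  pol p k := map_aeval h y p ▸ sz_of_sec h0 (sec_aeval h0 s 
    ((Finset.sup_mono (support_map_subset _ _)).trans k))
  deg x c a b := by
    obtain ⟨u, v⟩ := rank_le hK hN (Pb.dis_alg h a) b
    obtain ⟨w, z⟩ := rank_map h a
    refine ⟨w, z.trans ?_⟩
    rw [mul_comm]
    exact_mod_cast v.trans (mul_le_mul_of_nonneg_left hV (Nat.cast_nonneg _))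

/-! ### the anticanonical model over the base -/

theorem le_of_on (hK : FF K (n + 1)) {Λ H κ Γ : BD K} {c : ℝ} (hb : Big Λ) (a : Dsc Λ κ)
    (b : Dsc Λ H) (d : Nef (c • H - Γ)) (h : ∀ P, On n Λ P → κ P ≤ Γ P) : κ ≤ Γ := by
  obtain ⟨t, -, k⟩ := (a.sub (b.smul c)).exists_add
  have g : Γ ∈ Car K := by simpa using sub_mem (b.smul c).car d.car
  exact sub_nonpos.1 (Api.neg.neg n K hK Λ (κ - Γ) t a.smp hb (sub_mem a.car g)
    (by convert (k t le_rfl).nef.add d using 1; abel) fun P hP => sub_nonpos.2 (h P hP))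

theorem exists_anti (hE : EXTR) (hF : FTM0) (hK : FF K (n + 1)) {Λ : BD K} {s₀ : Finset K}
    (h : FTo n Λ s₀) : ∃ (Λ' D : BD K) (c : ℝ), FTo n Λ' s₀ ∧ Dsc Λ' D ∧ CarQ D ∧
      Smp (D + c • mx s₀) ∧ Big (D + c • mx s₀) ∧
      ∀ P, On n Λ' P → On n Λ P ∧ D P = -cn K (n + 1) P := by
  obtain ⟨Γ, c, a, b, d, g⟩ := h.ex
  obtain ⟨t, -, k⟩ := (h.des.smul c).neg.exists_add
  obtain ⟨Λ₁, s, u, q, v, w⟩ := hE n K hK Λ Γ t ∅ h.smp h.big
    (by convert (k t le_rfl).nef.add d using 1; abel) b a finite_empty (by simp)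
  simp only [mem_empty_iff_false, or_false] at w
  have f : FTo n Λ₁ s₀ := ⟨s, u, v.trans h.des, Γ, c, a, fun P hP => b P ((w P).1 hP), d, g⟩
  obtain ⟨κ, x⟩ := Gs.exists_hull Api.neg hK s q
    (Gs.isb_fin hK Api.neg s u (Api.mod.isb n K hK).2.1)
  have p : ∀ {Ω D : BD K}, FTo n Ω s₀ → Dsc Ω D → (∀ P, On n Ω P → On n Λ P ∧
      D P = -cn K (n + 1) P) → Big (D + c • mx s₀) := fun {Ω D} i j l => by
    refine g.mono ?_
    have := le_of_on hK i.big j.neg i.des d fun P hP => by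
      have := b P (l P hP).1
      simp only [dsc, Pi.sub_apply, Pi.neg_apply, (l P hP).2] at this ⊢
      linarith
    intro P
    have := this P
    simp only [Pi.sub_apply, Pi.add_apply, Pi.neg_apply] at this ⊢
    linarith
  obtain ⟨Λ', D, c', i, -, j, l, m, z⟩ := hF n K hK Λ₁ (-κ) s₀ c f q x.1.neg
    (Gs.carQ_of Api.neg hK s u x.1 fun P hP =>
      let ⟨z, hz⟩ := Cb.cn_int (n := n + 1) P
      ⟨z, by rw [x.2 P hP, hz, Rat.cast_intCast]⟩).neg
    (p f x.1.neg fun P hP => ⟨(w P).1 hP, congrArg _ (x.2 P hP)⟩).psef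
  have o : ∀ P, On n Λ' P → On n Λ P ∧ D P = -cn K (n + 1) P := fun P hP =>
    ⟨(w P).1 ((m P).1 hP).1, (j.2 P hP).trans (congrArg _ (x.2 P ((m P).1 hP).1))⟩
  refine ⟨Λ', D, max c c', i, j.1, l, ?_, ?_, o⟩
  · convert (z _ (le_max_right c c')).1.smp using 1
    abel
  · convert (p i j.1 o).add_smp ((smp_mx s₀).smul (sub_nonneg.2 (le_max_left c c'))) using 1
    rw [sub_smul]
    abel

/-- the order of the form of a transcendence basis -/
theorem kap_ge (hK : FF K n) {w : Fin n → K} (hw : AlgebraicIndependent ℂ w) (P : Pl K) {b : ℝ}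
    (h0 : 0 ≤ b) (h : ∀ i, -b ≤ P.ord (w i)) : -((n + 1) * b) ≤ kap w P := by
  by_cases k : ∀ i, w i ∈ P.ring
  · exact (neg_nonpos.2 (by positivity)).trans (Cb.kap_nonneg hK k)
  push Not at k
  obtain ⟨i, k⟩ := k
  have a : P.ord (w i) ≤ -1 := by
    have := mt (P297Z.Pl.ord_nonneg_iff P.toPlace (hw.ne_zero i)).1 k
    omega
  have c : (P.ord (w i) : ℝ) ≤ -1 := by exact_mod_cast a
  have d := Cb.sum_le_kap hK hw P
  have g := Finset.card_nsmul_le_sum Finset.univ (fun i => (P.ord (w i) : ℝ)) _ fun i _ => h i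
  simp only [Finset.card_univ, Fintype.card_fin, nsmul_eq_mul] at g
  linarith [h i]

/-- forms which have poles at the horizontal primes of the model have bounded size -/
def Form (n : ℕ) (Λ : BD K) (L : IntermediateField ℂ K) (S : ℕ → K → Prop) (y : Fin e → K) : Prop :=
  ∀ w : Fin (n + 1) → K, AlgebraicIndependent ℂ w → (∀ i, w i ∈ L ∨ w i ∈ range y) →
    ∀ (h : K) (N : ℕ), h ≠ 0 → (∀ P, Hor L P → On n Λ P → P.ord h + N * kap w P ≤ 0) →
      S (N * (n + 2)) h

/-- **BETA** -/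
theorem beta (hE : EXTR) (hF : FTM0) {r : ℕ} (eb : EB r) (vb : VB r) {ε : ℝ} (hε : 0 < ε) :
    ∃ V : ℕ, ∀ (n m : ℕ) (K : Type) [Field K] [Algebra ℂ K] (Λ Γ : BD K) (s₀ : Finset K),
      FF K (n + 1) → n = m + r → FF (fld (mx s₀)) m → Rel n Λ s₀ Γ →
      (∀ P, Hor (fld (mx s₀)) P → ε ≤ ld (n + 1) Γ P) →
      ∃ (S : ℕ → K → Prop) (y : Fin (r + 1) → K), Siz (fld (mx s₀)) V S y ∧
        Form n Λ (fld (mx s₀)) S y := by
  obtain ⟨v, hv⟩ := vb ε 1 hε one_pos
  obtain ⟨k, hk, he⟩ := eb ε 1 hε one_pos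
  refine ⟨⌈(k : ℝ) ^ (r + 1) * v⌉₊, ?_⟩
  rintro _ m K _ _ Λ Γ s₀ hK rfl hL h hl
  obtain ⟨Λ', D, c, a, b, -, d, g, o⟩ := exists_anti hE hF hK h.ft
  obtain ⟨K', _, _, φ, gf⟩ := gen_ex _ K hK _ (cld_fld (mx s₀))
  have fd : GFd m (r + 1) _ φ := ⟨gf, hK, hL⟩
  have hK' : FF K' (r + 1) := fd.ff
  have ok := fd.ok
  obtain ⟨f, f0, hf⟩ := g4 _ _ _ _ _ _ fd
  obtain ⟨H, H1, H2, H3⟩ := fld_down hK (smp_mx s₀)
  have p : pb φ (mx s₀) ∈ Prn K' := by
    simpa [pb_sub, Gx.pb_base gf.toExt ok] using ok.prn H3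
  have on : ∀ {N : BD K'}, Smp N → Dsc (pb φ Λ') N → ∀ P Q, Lies φ P Q → On r N P →
      On (m + r) Λ' Q := fun {N} x y P Q l z =>
    (Gx.on_fib Api.mod res' Api.vol Api.pb g2 g2b g3 (g3b Api.mod Api.neg) fd H2 H1
      (a.des.congr (by simpa using neg_mem H3)) l).1.1 (Mm.on_mono res' hK' x y z)
  have q : pb φ D - dv f - pb φ (D + c • mx s₀) ∈ Prn K' := by
    convert neg_mem (add_mem (dv_mem_Prn f) (Submodule.smul_mem _ c p)) using 1
    rw [pb_add, pb_smul]
    abel
  have le : -D ≤ Γ := let ⟨_, t⟩ := h.nef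
    le_of_on hK a.big b.neg a.des t fun P hP => by
      have := h.pr.bdy P (o P hP).1
      simp only [dsc, Pi.sub_apply, Pi.neg_apply, (o P hP).2] at this ⊢
      linarith
  have s1 : Smp (pb φ D - dv f) := (ok.smp d).congr q
  have ds : ∀ P Q, Lies φ P Q → dsc (r + 1) (-(pb φ D - dv f)) P = cn K (m + r + 1) Q + D Q :=
    fun P Q l => by
      simp only [dsc, hf, Pi.sub_apply, Pi.add_apply, Pi.neg_apply, gf.pb_eq l]
      ring_nf
  have fa : Ga.Fa r ε (-(pb φ D - dv f)) := by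
    refine ⟨by rwa [neg_neg], by simpa using (Gx.big_pb ok gf.gen g).congr q, fun P hP => ?_,
      fun P => ?_⟩ <;> obtain ⟨Q, l⟩ := gf.below hK' P <;> rw [ds P Q l]
    · rw [neg_neg] at hP
      rw [(o Q (on s1 ((ok.dsc b).sub (.dv (ok.smp a.smp) f)) P Q l hP)).2, add_neg_cancel]
    · have x := hl Q (gf.toExt.hor l)
      have y := le Q
      simp only [ld, dsc, Pi.sub_apply, Pi.neg_apply] at x y
      linarith
  have lf := Wv.lf_of_fa Api.mod Api.neg hK' fa 1
  have vl := hv K' hK' _ _ lf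
  have bir := he K' hK' _ _ _ lf.pr lf.elc lf.cf lf.amp lf.pr.rat.neg (fun P hP => by
    obtain ⟨z, hz⟩ := Cb.cn_int (n := r + 1) P
    exact ⟨-z, by rw [Pi.neg_apply, ← sub_eq_zero.1 (fa.on P hP), hz, Int.cast_neg]⟩)
    (sub_eq_add_neg (- -(pb φ D - dv f)) _ ▸ fa.smp.psef.add fa.smp.psef)
    (by rw [neg_add_cancel]; exact .zero)
  rw [neg_neg] at vl bir
  have sp : ∀ x, Sec ((k : ℝ) • (pb φ D - dv f)) x → x * (f ^ k)⁻¹ ∈ Submodule.span ℂ
      (φ '' {u | u ≠ 0 ∧ ∀ Q, Hor (fld (mx s₀)) Q → 0 ≤ (dv u + (k : ℝ) • D) Q}) := fun x hx =>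
    (g3 _ _ _ _ _ _ fd).2.2.1 _ _ ((sec_add_dv (inv_ne_zero (pow_ne_zero k f0))).1 (by
      rwa [dv_inv, dv_pow, pb_smul, ← sub_eq_add_neg, ← smul_sub]))
  obtain ⟨s, ⟨x, x1, x0⟩, -, x2, -⟩ := Wv.exists_mx_of_bir Api.mod Api.vol hK'
    (s1.smul (Nat.cast_nonneg k)).car bir
  obtain ⟨u, u0, hu⟩ :
      {u : K | u ≠ 0 ∧ ∀ Q, Hor (fld (mx s₀)) Q → 0 ≤ (dv u + (k : ℝ) • D) Q}.Nonempty :=
    nonempty_iff_ne_empty.2 fun z => by
      have := sp x ((sec_of_mem x1).mono x2)
      rw [z] at this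
      simp [x0, f0] at this
  have u1 : φ u ≠ 0 := (map_ne_zero φ).2 u0
  set T := {x | ∃ t, (t ≠ 0 ∧ ∀ Q, Hor (fld (mx s₀)) Q → 0 ≤ (dv t + (k : ℝ) • D) Q) ∧
    φ (t / u) = x} with hT
  have top : adjoin ℂ T = ⊤ := by
    have z : ∀ x, Sec ((k : ℝ) • (pb φ D - dv f)) x → x * (f ^ k)⁻¹ / φ u ∈ adjoin ℂ T :=
      fun x hx => by
        have := sp x hx
        generalize x * (f ^ k)⁻¹ = x' at this
        induction this using Submodule.span_induction with
        | mem _ i =>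
          obtain ⟨t, i, rfl⟩ := i
          exact IntermediateField.subset_adjoin _ _ ⟨t, i, map_div₀ _ _ _⟩
        | zero => simp
        | add _ _ _ _ i j => exact add_div _ _ (φ u) ▸ add_mem i j
        | smul a _ _ i => exact smul_div_assoc a _ (φ u) ▸ IntermediateField.smul_mem _ i
    refine eq_top_iff.2 (bir ▸ IntermediateField.adjoin_le_iff.2 ?_)
    rintro _ ⟨x, y, i, j, rfl⟩
    have := div_mem (z x i) (z y j)
    rwa [div_div_div_cancel_right₀ u1, mul_div_mul_right _ _ (inv_ne_zero (pow_ne_zero k f0))]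
      at this
  have : Algebra.IsAlgebraic (Algebra.adjoin ℂ T) K' :=
    IntermediateField.isAlgebraic_adjoin_iff_top.1 ⟨fun x =>
      isAlgebraic_algebraMap (⟨x, top ▸ trivial⟩ : adjoin ℂ T)⟩
  obtain ⟨B, B1, B2⟩ := exists_isTranscendenceBasis_subset (R := ℂ) T
  obtain ⟨τ⟩ := Cardinal.eq.1 (show Cardinal.mk (Fin (r + 1)) = Cardinal.mk B by
    rw [B2.cardinalMk_eq_trdeg, hK'.trdeg, Cardinal.mk_fin])
  choose t t1 t2 using fun i => B1 (τ i).2
  have n0 : 0 ≤ pb φ (dv u + (k : ℝ) • D) := fd.pb_nonneg.2 hu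
  have q' : pb φ (dv u + (k : ℝ) • D) - (k : ℝ) • (pb φ D - dv f) ∈ Prn K' := by
    simpa [pb_add, pb_smul, ok.pb_dv, smul_sub, add_sub_assoc] using
      add_mem (dv_mem_Prn (φ u)) (Submodule.smul_mem _ (k : ℝ) (dv_mem_Prn f))
  have s2 := (s1.smul (Nat.cast_nonneg k)).congr q'
  have yv : ∀ i Q, Hor (fld (mx s₀)) Q → -(dv u + (k : ℝ) • D) Q ≤ Q.ord (t i / u) :=
    fun i Q hQ => by
      have := (t1 i).2 Q hQ
      rw [← dv_apply, dv_div (t1 i).1 u0]
      simp only [Pi.add_apply, Pi.sub_apply] at this ⊢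
      linarith
  refine ⟨_, fun i => t i / u, siz gf.toExt hK' n0 s2.nef ?_
    (ind_of_map gf.toExt (by simpa only [t2, Function.comp_def] using B2.1.comp _ τ.injective)) fun i => ?_, ?_⟩
  · refine ((In.hy.vol_mono hK' s2.nef (s1.smul (Nat.cast_nonneg k)).nef
      (Eff.of_prn (by simpa using neg_mem q')).psef).trans ?_).trans (Nat.le_ceil _)
    rw [(In.hy.row _ K' hK').vol_smul _ s1.car]
    exact mul_le_mul_of_nonneg_left vl (by positivity)
  · refine Or.inr ?_
    rw [← ok.pb_dv, ← pb_add]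
    exact fd.pb_nonneg.2 fun Q hQ => by
      have := yv i Q hQ
      rw [Pi.add_apply, dv_apply]
      linarith
  · intro w w1 w2 j N j0 hj
    refine inv_inv (φ j) ▸ (sz_of_sec n0 (Or.inr ?_)).inv
    refine Gs.det Api.neg hK' s2 (((by simpa using fa.big : Big (pb φ D - dv f)).smul
      (Nat.cast_pos.2 hk)).congr q') ((Dsc.dv s2 _).add ((Dsc.refl s2).smul _)) fun P hP => ?_
    obtain ⟨Q, l⟩ := gf.below hK' P
    have hQ := gf.toExt.hor l
    have x := hj Q hQ (o Q (on s2 (ok.dsc ((Dsc.dv a.smp u).add (b.smul _))) P Q l hP)).1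
    have y := kap_ge hK w1 Q (hu Q hQ) fun i => (w2 i).elim
      (fun z => by rw [hQ.ord z, Int.cast_zero]; exact neg_nonpos.2 (hu Q hQ))
      fun ⟨i, z⟩ => z ▸ yv i Q hQ
    have z := mul_le_mul_of_nonneg_left y (Nat.cast_nonneg N)
    rw [dv_inv, Pi.add_apply, Pi.neg_apply, dv_apply, gf.ord_eq l, Pi.smul_apply, gf.pb_eq l,
      smul_eq_mul]
    push_cast at z ⊢
    linarith

end Vale.Agent.P283B.Mo
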