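import Vale.Agent.P287D.St

/-!
# P283B, block MONO: the statement of the engine
-/

open Set MvPolynomial
open IntermediateField (adjoin)

noncomputable section

namespace Vale.Agent.P283B.Mb

open P287D

/-- what the engine uses about sizes -/
structure Sy (F : Type) {E : Type} [Field F] [Field E] [Algebra F E] {e : ℕ} (V : ℕ)
    (S : ℕ → E → Prop) (y : Fin e → E) : Prop where
  ind : AlgebraicIndependent F y
  mul : ∀ {a b f g}, S a f → S b g → S (a + b) (f * g)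
  inv : ∀ {a f}, S a f → S a f⁻¹
  pol : ∀ {k} (p : MvPolynomial (Fin e) F), p.totalDegree ≤ k → S k (aeval y p)
  deg : ∀ (x : Fin e → E) (c : ℕ), AlgebraicIndependent F x → (∀ i, S c (x i)) →
    FiniteDimensional (adjoin F (range x)) E ∧ Module.finrank (adjoin F (range x)) E ≤ V * c ^ e
  rel : ∀ (x : Fin e → E) (c k : ℕ) (f : E), AlgebraicIndependent F x → (∀ i, S c (x i)) →
    S k f → ∃ R : MvPolynomial (Option (Fin e)) F, Irreducible R ∧
      aeval (fun o => Option.elim o f x) R = 0 ∧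
      (∀ j, degreeOf (some j) R ≤ V * (k * c ^ (e - 1))) ∧
      R.totalDegree ≤ V * c ^ e + e * (V * (k * c ^ (e - 1)))

/-- **ENGR**: an lc form `h (dw) ^ N` of bounded size and `ε`-lc forms `F (dw) ^ r` of size `r k`
bound the ramification of `T` over `Q` by their log discrepancy `a` at `T` -/
def ENGR : Prop := ∀ (e V N k : ℕ) (ε : ℝ), 0 < N → 0 < ε → ∃ δ : ℝ, 0 < δ ∧
  ∀ (n m : ℕ) (K : Type) [Field K] [Algebra ℂ K] (L : IntermediateField ℂ K) (Q : Pl L)
    (S : ℕ → K → Prop) (y : Fin e → K) (T : Pl K) (a : ℝ), FF K (n + 1) → FF L (m + 1) →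
    n = e + m → Sy L V S y → Lies (inc L) T Q →
    (∀ w : Fin (n + 1) → K, AlgebraicIndependent ℂ w → (∀ i, w i ∈ L ∨ w i ∈ range y) →
      (∃ h, h ≠ 0 ∧ S (N * k) h ∧ (∀ P, Lies (inc L) P Q → 0 ≤ P.ord h + N * (kap w P + 1)) ∧
        T.ord h + N * (kap w T + 1) ≤ N * a) ∧
      ∃ r : ℕ, 0 < r ∧ ∀ U : Set (Pl K), U.Finite → (∀ P ∈ U, Lies (inc L) P Q) →
        ∃ F, F ≠ 0 ∧ S (r * k) F ∧ T.ord F + r * (kap w T + 1) ≤ r * a ∧
          ∀ P ∈ U, r * ε ≤ P.ord F + r * (kap w P + 1)) →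
    δ * T.ord (inc L Q.t) ≤ a

end Vale.Agent.P283B.Mb
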