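import Vale.Agent.P283B.MONO.Va3

/-!
# P283B, block MONO: bounded charts (CHART) and the Lipschitz estimate (LIP)
-/

open Set MvPolynomial

noncomputable section

namespace Vale.Agent.P283B.Mono

section top

variable {Ω : Type} [Field Ω] [IsAlgClosed Ω] {w : AbsoluteValue Ω ℝ} {E M : Subfield Ω}

theorem top_est (v : VS w E) (hM : Cl M) {x α γ ρ : Ω} (h : Gn w M x) (hα : α ∈ M) (hγ : γ ∈ M)
    (γ0 : γ ≠ 0) {g : Polynomial Ω} (hg : ∀ i, g.coeff i ∈ M) (r : g.IsRoot ρ)
    {l : ℝ} (l1 : 1 ≤ l) (hρ : w (ρ - α) ≤ l * w γ) {c : ℕ} (hc : g.natDegree ≤ c) :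
    w (g.eval (α + γ * x)) ≤ l ^ c * w (γ * g.derivative.eval (α + γ * x)) := by
  have hw := v.na
  have key : ∀ f : Polynomial Ω, (∀ i, f.coeff i ∈ M) →
      w (f.eval (α + γ * x)) = (Polynomial.taylor α f).gaussNorm w (w γ) := fun f hf => by
    rw [← h.eval_gn hw hγ γ0, Polynomial.taylor_eval, add_comm]
    intro z hz
    obtain ⟨a, b⟩ := Polynomial.mem_roots'.1 hz
    have := hM.root (f := f) (fun e => a (by simp [e])) hf ((Polynomial.taylor_eval α f z).symm.trans b)
    simpa using sub_mem this hα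
  have d : Polynomial.taylor α g.derivative = (Polynomial.taylor α g).derivative := by
    simp [Polynomial.taylor_apply, Polynomial.derivative_comp]
  rw [map_mul, key g hg, key _ fun i => by
    rw [Polynomial.coeff_derivative]
    exact mul_mem (hg _) (add_mem (natCast_mem M i) M.one_mem), d]
  set G := Polynomial.taylor α g
  have p := w.pos γ0
  have n := G.derivative.gaussNorm_nonneg w p.le
  have main : ∀ j, j ≠ 0 → w (G.coeff j) * (l * w γ) ^ j ≤
      l ^ c * (w γ * G.derivative.gaussNorm w (w γ)) := fun j j0 => by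
    by_cases z : G.coeff j = 0
    · rw [z, map_zero, zero_mul]
      positivity
    obtain ⟨j, rfl⟩ := Nat.exists_eq_succ_of_ne_zero j0
    have a := G.derivative.le_gaussNorm w p.le j
    rw [Polynomial.coeff_derivative, map_mul, ← Nat.cast_succ, v.nat _ j0, mul_one] at a
    have b : l ^ (j + 1) ≤ l ^ c := pow_le_pow_right₀ l1
      ((Polynomial.le_natDegree_of_ne_zero z).trans ((Polynomial.natDegree_taylor _ _).trans_le hc))
    calc _ = l ^ (j + 1) * (w γ * (w (G.coeff (j + 1)) * w γ ^ j)) := by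
          rw [mul_pow, Nat.succ_eq_add_one, pow_succ (w γ)]
          ring
      _ ≤ _ := by gcongr
  obtain ⟨i, hi⟩ := G.exists_eq_gaussNorm w (w γ)
  rw [hi]
  rcases eq_or_ne i 0 with rfl | i0
  · by_cases z : G.coeff 0 = 0
    · rw [z, map_zero, zero_mul]
      positivity
    obtain ⟨j, j0, hj⟩ := two_of_root hw (f := G) (x := ρ - α)
      (by rw [Polynomial.IsRoot, Polynomial.taylor_eval, sub_add_cancel]; exact r) 0 (by simpa)
    rw [pow_zero] at hj ⊢
    exact hj.trans (le_trans (by gcongr) (main j j0))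
  · refine le_trans ?_ (main i i0)
    gcongr
    exact le_mul_of_one_le_left p.le l1

omit [IsAlgClosed Ω] in
theorem max_near (hw : IsNonarchimedean w) {a b r : Ω} {s : ℝ} (h : w (a - b) ≤ s) :
    max s (w (r - a)) = max s (w (r - b)) := by
  have k : ∀ {a b : Ω}, w (a - b) ≤ s → max s (w (r - b)) ≤ max s (w (r - a)) := fun {a b} h => by
    have := hw (r - a) (a - b)
    rw [sub_add_sub_cancel] at this
    exact max_le (le_max_left _ _) (this.trans (max_le (le_max_right _ _) (h.trans (le_max_left _ _))))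
  exact le_antisymm (k (by rwa [w.map_sub])) (k h)

variable {k : Type} [Field k] [Algebra k Ω] {e : ℕ}

theorem exists_closure {ι : Type} (y : ι → Ω) : ∃ (K : Type) (_ : Field K) (_ : Algebra k K)
    (_ : IsAlgClosed K) (σ : K →ₐ[k] Ω) (z : ι → K), (∀ j, σ (z j) = y j) ∧
      Algebra.IsAlgebraic (Algebra.adjoin k (range z)) K := by
  let F := IntermediateField.adjoin k (range y)
  let A := (algebraicClosure F Ω).restrictScalars k
  have m : ∀ j, y j ∈ A := fun j => (algebraicClosure F Ω).algebraMap_mem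
    ⟨y j, IntermediateField.subset_adjoin _ _ ⟨j, rfl⟩⟩
  refine ⟨A, inferInstance, inferInstance, IsAlgClosure.isAlgClosed F (K := algebraicClosure F Ω),
    A.val, fun j => ⟨y j, m j⟩, fun _ => rfl, ⟨fun x => ?_⟩⟩
  have h : IsAlgebraic (Algebra.adjoin k (range y)) x.1 :=
    IntermediateField.isAlgebraic_adjoin_iff.1 (mem_algebraicClosure_iff.1 x.2)
  obtain ⟨p, p0, hp⟩ := h
  obtain ⟨R, hR⟩ : p.map (algebraMap _ Ω) ∈
      Polynomial.lifts (aeval y : MvPolynomial ι k →ₐ[k] Ω).toRingHom :=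
    (Polynomial.lifts_iff_coeff_lifts _).2 fun i => by
      rw [Polynomial.coeff_map]
      exact (Algebra.adjoin_range_eq_range_aeval k y).le (p.coeff i).2
  have hR' : at_ y R = p.map (algebraMap _ Ω) := hR
  let z : ι → A := fun j => ⟨y j, m j⟩
  let φ : MvPolynomial ι k →+* Algebra.adjoin k (range z) :=
    (aeval z : MvPolynomial ι k →ₐ[k] A).toRingHom.codRestrict _ fun q =>
      (Algebra.adjoin_range_eq_range_aeval k z).ge ⟨q, rfl⟩
  have e1 : (R.map φ).map (algebraMap _ A) = at_ z R := Polynomial.map_map _ _ _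
  have e2 : (at_ z R).map (A.val : A →+* Ω) = p.map (algebraMap _ Ω) := (at_map A.val z R).trans hR'
  refine ⟨R.map φ, fun h => p0 (Polynomial.map_injective (algebraMap _ Ω) Subtype.val_injective ?_),
    A.val.injective ?_⟩
  · rw [← e2, ← e1, h]
    simp
  · rw [Polynomial.aeval_def, Polynomial.eval₂_eq_eval_map, e1, map_zero, ← hp, Polynomial.aeval_def,
      Polynomial.eval₂_eq_eval_map, ← e2]
    exact (Polynomial.eval_map_apply (A.val : A →+* Ω) x).symm

omit [IsAlgClosed Ω] in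
theorem up_at (η : Fin e → Ω) (f : MvPolynomial (Fin (e + 1)) k) :
    up (algebraMap k Ω) η f = at_ η (finSuccEquiv k e f) := rfl

omit [IsAlgClosed Ω] in
theorem up_pderiv (η : Fin e → Ω) (f : MvPolynomial (Fin (e + 1)) k) :
    up (algebraMap k Ω) η (pderiv 0 f) = (up (algebraMap k Ω) η f).derivative := by
  rw [up, up, Polynomial.derivative_map]
  congr 1
  induction f using MvPolynomial.induction_on with
  | C a => simp [finSuccEquiv_apply]
  | add p q hp hq => simp only [map_add, hp, hq]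
  | mul_X p i hp =>
    rw [Derivation.leibniz, map_add, smul_eq_mul, smul_eq_mul, map_mul, map_mul, map_mul, hp,
      Polynomial.derivative_mul]
    refine i.cases ?_ fun i => ?_
    · simp [finSuccEquiv_X_zero]
      ring
    · simp [finSuccEquiv_X_succ, pderiv_X_of_ne (Fin.succ_ne_zero i)]
      ring

theorem val_cons (hw : IsNonarchimedean w) (hk : ∀ a, algebraMap k Ω a ∈ E) {u : Fin (e + 1) → Ω}
    (hu : Tw w E u) {K : Type} [Field K] [Algebra k K] [IsAlgClosed K] (τ : K →ₐ[k] Ω)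
    {z : Fin e → K} {γ : Fin e → Ω} (h : Tri E (Fin.tail u) (fun j => τ (z j)) γ) {α c : Ω}
    (hα : α ∈ Lv E u 0) (hc : c ∈ E) (c0 : c ≠ 0) (f : MvPolynomial (Fin (e + 1)) k) :
    w (aeval (Fin.cons (α + c * u 0) fun j => τ (z j) : Fin (e + 1) → Ω) f) =
      w (τ (at_ z (finSuccEquiv k e f)).leadingCoeff) *
        ((at_ z (finSuccEquiv k e f)).roots.map fun ρ => max (w c) (w (τ ρ - α))).prod := by
  rw [aeval_def, ← up_eval, Fin.cons_zero, (hu 0).eval_roots hw hα (le_lv u 0 hc) c0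
    ((lv_cl u 0).roots (up_mem _ hk (h.cons hα hc c0) f)), Fin.tail_cons, up_at, ← at_map,
    Polynomial.leadingCoeff_map, (IsAlgClosed.splits _).roots_map, Multiset.map_map]
  rfl

end top

/-- the charts over a tower of height `e` -/
def MST (e : ℕ) : Prop := ∀ c : ℕ, ∃ C : ℕ, ForV fun k Ω _ _ _ w E => ∀ (u y γ : Fin e → Ω)
  (F : Finset (MvPolynomial (Fin e) k)) (a : ℝ), Tw w E u → Tri E u y γ → Fam c F →
  (∀ η γ', Tri E u η γ' → Sm w F η y → ∏ j, w (γ' j) ≤ a * ∏ j, w (γ j)) →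
  ∃ P : Fin e → MvPolynomial (Fin e) k, (∀ j, (P j).totalDegree ≤ C) ∧
    (∀ i j, i < j → pderiv i (P j) = 0) ∧ (∀ j, P j ≠ 0) ∧
    ∏ j, w (aeval y (P j)) ≤ a ^ C * ∏ j, w (γ j * aeval y (pderiv j (P j)))

theorem mst_succ {e : ℕ} (ih : MST e) : MST (e + 1) := fun c => by
  classical
  obtain ⟨C₁, h₁⟩ := rl_op c
  obtain ⟨C₂, h₂⟩ := transport (c + c * c + 1 + C₁)
  obtain ⟨C₃, h₃⟩ := ih C₂
  refine ⟨c + C₃, fun k Ω _ _ _ _ w E v hk u y γ F a hu hy hF H => ?_⟩
  have hw := v.na
  obtain ⟨K, _, _, _, σ, z, hz, ha⟩ := exists_closure (k := k) (Fin.tail y)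
  have ht : Tri E (Fin.tail u) (fun j => σ (z j)) (Fin.tail γ) := funext hz ▸ hy.tail
  have iz : AlgebraicIndependent k z := .of_comp σ (ht.ind hk hu.tail)
  set α := y 0 - γ 0 * u 0
  have hα : α ∈ Lv E u 0 := hy.cen 0
  have ey : y = Fin.cons (α + γ 0 * u 0) fun j => σ (z j) := by
    rw [funext hz, sub_add_cancel, Fin.cons_self_tail]
  let g : MvPolynomial (Fin (e + 1)) k → Polynomial K := fun f => at_ z (finSuccEquiv k e f)
  have f0 : ∀ f ∈ F, finSuccEquiv k e f ≠ 0 := fun f hf => by simpa using (hF.2 f hf).1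
  have bd : ∀ f ∈ F, Bd c (finSuccEquiv k e f) := fun f hf =>
    ⟨(natDegree_finSuccEquiv f).trans_le ((degreeOf_le_totalDegree _ _).trans (hF.2 f hf).2),
      fun i => by
        by_cases z : (finSuccEquiv k e f).coeff i = 0
        · simp [z]
        · exact le_trans (le_of_add_le_left (totalDegree_coeff_finSuccEquiv_add_le f i z))
            (hF.2 f hf).2⟩
  have p0 := w.pos (hy.ne 0)
  have pt : 0 < ∏ j, w (Fin.tail γ j) := Finset.prod_pos fun j _ => w.pos (hy.ne j.succ)
  have H' : ∀ (τ : K →ₐ[k] Ω) (γ' : Fin e → Ω) (A d : Ω), Tri E (Fin.tail u) (fun j => τ (z j)) γ' →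
      A ∈ Lv E u 0 → d ∈ E → d ≠ 0 → (∀ f ∈ F, w (τ (g f).leadingCoeff) = w (σ (g f).leadingCoeff) ∧
        ∀ ρ ∈ (g f).roots, max (w d) (w (τ ρ - A)) = max (w (γ 0)) (w (σ ρ - α))) →
      w d * ∏ j, w (γ' j) ≤ a * (w (γ 0) * ∏ j, w (Fin.tail γ j)) := fun τ γ' A d t hA hd d0 s => by
    have := H _ _ (t.cons hA hd d0) fun f hf => by
      rw [val_cons hw hk hu τ t hA hd d0, ey, val_cons hw hk hu σ ht hα (hy.mem 0) (hy.ne 0),
        (s f hf).1, Multiset.map_congr rfl (s f hf).2]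
    rwa [Fin.prod_univ_succ, Fin.prod_univ_succ] at this
  let S := F.biUnion fun f => (g f).roots.toFinset
  have mS : ∀ {ρ}, ρ ∈ S ↔ ∃ f ∈ F, ρ ∈ (g f).roots := by simp [S]
  rcases S.eq_empty_or_nonempty with S0 | Sn
  · exfalso
    obtain ⟨d, hd, d1⟩ := v.big
    obtain ⟨n, hn⟩ := pow_unbounded_of_one_lt (a * w (γ 0)) d1
    have := H' σ _ α (d ^ n) ht hα (pow_mem hd n) (pow_ne_zero _ (w.pos_iff.1 (by linarith)))
      fun f hf => ⟨rfl, fun ρ hρ => absurd (mS.2 ⟨f, hf, hρ⟩) (by simp [S0])⟩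
    rw [map_pow, ← mul_assoc] at this
    exact (le_of_mul_le_mul_right this pt).not_gt hn
  obtain ⟨ρ, hρ, mn⟩ := S.exists_min_image (fun ρ => w (σ ρ - α)) Sn
  obtain ⟨f, hf, rf⟩ := mS.1 hρ
  obtain ⟨d, hd, ed⟩ : ∃ d ∈ E, w d = max (w (γ 0)) (w (σ ρ - α)) := by
    rcases max_choice (w (γ 0)) (w (σ ρ - α)) with b | b <;> rw [b] <;> exact v.ful _
  have dγ : w (γ 0) ≤ w d := ed ▸ le_max_left _ _
  have dρ : w (σ ρ - α) ≤ w d := ed ▸ le_max_right _ _
  have d0 : d ≠ 0 := w.pos_iff.1 (p0.trans_le dγ)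
  have near : ∀ r ∈ S, max (w d) (w (σ r - α)) = max (w (γ 0)) (w (σ r - α)) := fun r hr => by
    rw [ed, max_assoc, max_eq_right (mn r hr)]
  set l := w d / w (γ 0)
  have l1 : 1 ≤ l := (one_le_div p0).2 dγ
  have el : w d = l * w (γ 0) := (div_mul_cancel₀ _ p0.ne').symm
  have la : l ≤ a := by
    have := H' σ _ α d ht hα hd d0 fun f hf => ⟨rfl, fun r hr => near r (mS.2 ⟨f, hf, hr⟩)⟩
    rw [el, mul_assoc] at this
    exact le_of_mul_le_mul_right this (by positivity)
  have rS : ∀ r ∈ S, Rl k z c r := fun r hr => by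
    obtain ⟨f, hf, hr⟩ := mS.1 hr
    exact ⟨_, f0 f hf, bd f hf, (Polynomial.mem_roots'.1 hr).2⟩
  have lc : ∀ f, (g f).leadingCoeff = aeval z (finSuccEquiv k e f).leadingCoeff := fun f =>
    Polynomial.leadingCoeff_map_of_injective iz _
  obtain ⟨F', hF', T⟩ := h₂ k K Ω (Fin e) w σ z hw iz ha
    (F.image (fun f => (g f).leadingCoeff) ∪ (S.erase ρ).image fun r => r - ρ) (by
      have h1 := Finset.card_union_le (F.image (fun f => (g f).leadingCoeff))
        ((S.erase ρ).image fun r => r - ρ)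
      have h2 := (Finset.card_image_le (s := F) (f := fun f => (g f).leadingCoeff)).trans hF.1
      have h3 := (Finset.card_image_le (s := S.erase ρ) (f := fun r => r - ρ)).trans
        Finset.card_erase_le
      have h4 : S.card ≤ F.card * c := Finset.card_biUnion_le_card_mul _ _ _ fun f hf =>
        (Multiset.toFinset_card_le _).trans ((Polynomial.card_roots' _).trans
          (Polynomial.natDegree_map_le.trans (bd f hf).1))
      have h5 := Nat.mul_le_mul_right c hF.1
      omega) fun b hb => by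
    rcases Finset.mem_union.1 hb with hb | hb <;> obtain ⟨r, hr, rfl⟩ := Finset.mem_image.1 hb
    · refine ⟨Polynomial.leadingCoeff_ne_zero.2 (at_ne iz (f0 r hr)), ?_⟩
      rw [lc]
      exact (rl_pol z ((bd r hr).2 _)).mono (by omega)
    · exact ⟨sub_ne_zero.2 (Finset.ne_of_mem_erase hr), (h₁ k K _ z false _ _
        (rS r (Finset.mem_of_mem_erase hr)) (rS ρ hρ)).mono (by omega)⟩
  obtain ⟨P, P1, P2, P3, P4⟩ := h₃ k Ω w E v hk _ _ _ F' (a / l) hu.tail ht hF' fun η γ' t s => by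
    obtain ⟨τ, rfl, hτ⟩ : ∃ τ : K →ₐ[k] Ω, (fun j => τ (z j)) = η ∧ _ :=
      (T η (t.ind hk hu.tail) s).imp fun τ h => ⟨funext h.1, h.2⟩
    have m : τ ρ ∈ Lv E u 0 := (lv_cl u 0).root (at_ne (t.ind hk hu.tail) (f0 f hf))
      (up_mem _ hk (t.cons hα hd d0) f) (at_root τ (Polynomial.mem_roots'.1 rf).2)
    have := H' τ γ' (τ ρ) d t m hd d0 fun f hf => ⟨hτ _ (Finset.mem_union_left _
      (Finset.mem_image_of_mem _ hf)), fun r hr => by
        have hr := mS.2 ⟨f, hf, hr⟩
        rw [← near r hr, ← max_near hw dρ, ← map_sub, ← map_sub]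
        by_cases b : r = ρ
        · simp [b]
        · rw [hτ _ (Finset.mem_union_right _ (Finset.mem_image_of_mem _
            (Finset.mem_erase.2 ⟨b, hr⟩)))]⟩
    rw [el] at this
    rw [div_mul_eq_mul_div, le_div_iff₀ (by positivity)]
    exact le_of_mul_le_mul_right (by linarith) p0
  have top := top_est v (lv_cl u 0) (hu 0) hα (le_lv u 0 (hy.mem 0)) (hy.ne 0)
    (up_mem _ hk (ht.cons hα hd d0) f) (at_root σ (Polynomial.mem_roots'.1 rf).2) l1 (el ▸ dρ)
    (Polynomial.natDegree_map_le.trans (bd f hf).1)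
  rw [Fin.tail_cons, ← up_pderiv, sub_add_cancel, funext hz, up_eval, up_eval] at top
  refine ⟨Fin.cons f fun j => rename Fin.succ (P j), fun j => ?_, fun i j => ?_, fun j => ?_, ?_⟩
  · refine j.cases ?_ fun j => ?_
    · exact (hF.2 f hf).2.trans (Nat.le_add_right _ _)
    · exact (totalDegree_rename_le _ _).trans ((P1 j).trans (Nat.le_add_left _ _))
  · refine j.cases (fun h => (Fin.not_lt_zero _ h).elim) fun j => i.cases (fun _ => ?_) fun i h => ?_
    · refine pderiv_eq_zero_of_notMem_vars fun h => ?_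
      obtain ⟨i, -, hi⟩ := mem_vars_rename _ _ h
      exact Fin.succ_ne_zero _ hi
    · rw [Fin.cons_succ, pderiv_rename (Fin.succ_injective _), P2 i j (Fin.succ_lt_succ_iff.1 h),
        map_zero]
  · refine j.cases (hF.2 f hf).1 fun j => ?_
    exact (map_ne_zero_iff _ (rename_injective _ (Fin.succ_injective _))).2 (P3 j)
  · rw [funext hz] at P4
    simp only [Fin.prod_univ_succ, Fin.cons_zero, Fin.cons_succ,
      pderiv_rename (Fin.succ_injective _), aeval_rename]
    have a0 : 0 ≤ a / l := div_nonneg (by linarith) (by linarith)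
    calc _ ≤ (l ^ c * w (γ 0 * aeval y (pderiv 0 f))) * ((a / l) ^ C₃ *
          ∏ j, w (Fin.tail γ j * aeval (Fin.tail y) (pderiv j (P j)))) :=
          mul_le_mul top P4 (Finset.prod_nonneg fun _ _ => w.nonneg _) (by positivity)
      _ ≤ (a ^ c * w (γ 0 * aeval y (pderiv 0 f))) * (a ^ C₃ *
          ∏ j, w (Fin.tail γ j * aeval (Fin.tail y) (pderiv j (P j)))) := by
          have := Finset.prod_nonneg (s := Finset.univ) fun j _ =>
            w.nonneg (Fin.tail γ j * aeval (Fin.tail y) (pderiv j (P j)))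
          have : a / l ≤ a := div_le_self (by linarith) l1
          have : 0 ≤ a := by linarith
          gcongr
      _ = _ := by
          rw [pow_add]
          exact mul_mul_mul_comm _ _ _ _

theorem mst (e : ℕ) : MST e := by
  induction e with
  | zero => exact fun _ => ⟨0, fun _ _ _ _ _ _ _ _ _ _ _ _ _ _ _ _ _ _ _ =>
      ⟨fun j => j.elim0, fun j => j.elim0, fun j => j.elim0, fun j => j.elim0, by simp⟩⟩
  | succ e ih => exact mst_succ ih

theorem jc_map {k K Ω : Type} [Field k] [Field K] [Field Ω] [Algebra k K] [Algebra k Ω] {e : ℕ}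
    (τ : K →ₐ[k] Ω) (y : Fin e → K) (P : Fin e → MvPolynomial (Fin e) k) :
    τ (jc y P) = jc (fun j => τ (y j)) P := by
  rw [jc, jc, AlgHom.map_det]
  congr 1
  ext i j
  exact comp_aeval_apply _ _ _

theorem chart : CHART := fun e c => by
  obtain ⟨C₁, h₁⟩ := transport (c + 1)
  obtain ⟨C, h₂⟩ := mst e C₁
  refine ⟨C, fun k Ω _ _ _ _ w E v hk K _ _ σ u γ y h N a R ha hu hy h0 R0 hR r N0 a0 H H' => ?_⟩
  have iy := hy.ind hk hu
  obtain ⟨F, hF, T⟩ := h₁ k K Ω (Fin e) w σ y v.na (.of_comp σ iy) ha {h} (by simp)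
    fun b hb => by
      rw [Finset.mem_singleton.1 hb]
      exact ⟨h0, Rl.mono ⟨optionEquivLeft k _ R, by simpa using R0, bd_opt R,
        (at_opt y h R).trans r⟩ (hR.trans (Nat.le_succ c))⟩
  have pγ : 0 ≤ ∏ j, w (γ j) := Finset.prod_nonneg fun _ _ => w.nonneg _
  obtain ⟨P, P1, P2, P3, P4⟩ := h₂ k Ω w E v hk u _ γ F a hu hy hF fun η γ' t s => by
    obtain ⟨τ, rfl, hτ⟩ : ∃ τ : K →ₐ[k] Ω, (fun j => τ (y j)) = η ∧ _ :=
      (T η (t.ind hk hu) s).imp fun τ h => ⟨funext h.1, h.2⟩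
    have := (H τ γ' t).trans H'
    rw [hτ h (by simp)] at this
    exact le_of_pow_le_pow_left₀ N0.ne' (by positivity)
      (le_of_mul_le_mul_left this (w.pos ((map_ne_zero σ).2 h0)))
  have e1 : σ (jc y P) = ∏ j, aeval (fun j => σ (y j)) (pderiv j (P j)) := by
    rw [jc_map, jc, Matrix.det_of_isLowerTriangular]
    · rfl
    · intro i j hij
      simp [P2 i j hij]
  simp only [map_mul, Finset.prod_mul_distrib] at P4
  rw [← map_prod w fun j => aeval (fun j => σ (y j)) (pderiv j (P j)), ← e1] at P4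
  refine ⟨P, P1, fun z => ?_, ?_⟩
  · rw [z, map_zero, map_zero, mul_zero, mul_zero] at P4
    exact P4.not_gt (Finset.prod_pos fun j _ => w.pos fun b => P3 j (iy.eq_zero_of_aeval_eq_zero _ b))
  · simp only [comp_aeval_apply]
    linarith

section lip

variable {k K Ω : Type} [Field k] [Field K] [Field Ω] [Algebra k K] [Algebra k Ω] {e : ℕ}
  {w : AbsoluteValue Ω ℝ} {E : Subfield Ω}

theorem der_aeval {P : Fin e → K} {D : Fin e → Derivation k K K}
    (h : ∀ i j, D i (P j) = if i = j then 1 else 0) (i : Fin e) (p : MvPolynomial (Fin e) k) :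
    D i (aeval P p) = aeval P (pderiv i p) := by
  induction p using MvPolynomial.induction_on with
  | C a => simp
  | add p q hp hq => simp [hp, hq]
  | mul_X p j hp =>
    by_cases b : i = j
    · subst b
      simp [hp, h]
    · simp [hp, h, b, pderiv_X_of_ne (Ne.symm b)]

theorem coeff_euler (j : Fin e) (p : MvPolynomial (Fin e) k) (m : Fin e →₀ ℕ) :
    (X j * pderiv j p).coeff m = m j * p.coeff m := by
  classical
  induction p using MvPolynomial.induction_on' with
  | monomial n a =>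
    rw [X_mul_pderiv_monomial, coeff_smul, coeff_monomial]
    split_ifs with h <;> simp [h]
  | add p q hp hq => simp [mul_add, hp, hq]

theorem VS.sub (v : VS w E) {a b : ℕ} (h : a ≠ b) : w ((a : Ω) - b) = 1 := by
  rcases h.lt_or_gt with l | l
  · rw [w.map_sub, ← Nat.cast_sub l.le, v.nat _ (by omega)]
  · rw [← Nat.cast_sub l.le, v.nat _ (by omega)]

theorem isolate (v : VS w E) (σ : K →ₐ[k] Ω) {P : Fin e → K} {D : Fin e → Derivation k K K}
    (h : ∀ i j, D i (P j) = if i = j then 1 else 0) {b : ℝ} (b1 : 1 ≤ b)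
    (hD : ∀ j f, w (σ (P j * D j f)) ≤ b * w (σ f)) {ρ : ℕ} {p : MvPolynomial (Fin e) k}
    (hp : ∀ m ∈ p.support, ∀ j, m j ≤ ρ) {m : Fin e →₀ ℕ} (hm : m ∈ p.support) :
    w (algebraMap k Ω (p.coeff m)) * ∏ j, w (σ (P j)) ^ m j ≤ b ^ (e * ρ) * w (σ (aeval P p)) := by
  classical
  have key : ∀ S : Finset (Σ _ : Fin e, ℕ), ∃ q : MvPolynomial (Fin e) k,
      (∀ n, q.coeff n = (∏ s ∈ S, ((n s.1 : k) - s.2)) * p.coeff n) ∧
        w (σ (aeval P q)) ≤ b ^ S.card * w (σ (aeval P p)) := fun S => by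
    induction S using Finset.induction_on with
    | empty => exact ⟨p, by simp, by simp⟩
    | insert s S hs ih =>
      obtain ⟨q, h1, h2⟩ := ih
      refine ⟨X s.1 * pderiv s.1 q - C (s.2 : k) * q, fun n => ?_, ?_⟩
      · rw [coeff_sub, coeff_euler, coeff_C_mul, h1, Finset.prod_insert hs]
        ring
      · rw [Finset.card_insert_of_notMem hs, pow_succ', mul_assoc, map_sub, map_sub]
        refine ((na_sub v.na _ _).trans (max_le ?_ ?_)).trans
          (mul_le_mul_of_nonneg_left h2 (by linarith))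
        · rw [map_mul, aeval_X, ← der_aeval h]
          exact hD _ _
        · rw [map_mul, map_mul, map_mul, map_natCast, map_natCast, map_natCast]
          exact mul_le_mul_of_nonneg_right (v.na.apply_natCast_le_one.trans b1) (w.nonneg _)
  obtain ⟨q, h1, h2⟩ := key (Finset.univ.sigma fun j => (Finset.range (ρ + 1)).erase (m j))
  have eq : q = monomial m (q.coeff m) := by
    ext n
    rw [coeff_monomial]
    split_ifs with a
    · rw [a]
    · rw [h1]
      by_cases z : n ∈ p.support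
      · obtain ⟨j, hj⟩ := Finsupp.ne_iff.1 a
        exact mul_eq_zero_of_left (Finset.prod_eq_zero (i := ⟨j, n j⟩)
          (by simp [hj.symm, hp n z j]) (sub_self _)) _
      · rw [notMem_support_iff.1 z, mul_zero]
  have c : (Finset.univ.sigma fun j => (Finset.range (ρ + 1)).erase (m j)).card = e * ρ := by
    rw [Finset.card_sigma, Finset.sum_congr rfl fun j _ => Finset.card_erase_of_mem
      (Finset.mem_range.2 (Nat.lt_succ_iff.2 (hp m hm j)))]
    simp
  rw [c, eq, aeval_monomial, h1, Finsupp.prod_fintype _ _ fun _ => pow_zero _] at h2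
  simp only [map_mul, map_prod, map_pow, map_sub, map_natCast] at h2
  rwa [Finset.prod_eq_one, one_mul, AlgHom.commutes] at h2
  exact fun s hs => v.sub (Finset.ne_of_mem_erase (Finset.mem_sigma.1 hs).2).symm

theorem prod_lip {x y : Fin e → ℝ} {l : ℝ} (l1 : 1 ≤ l) (hx : ∀ j, 0 ≤ x j) (hy : ∀ j, 0 ≤ y j)
    (h : ∀ j, x j ≤ l * y j) {ρ : ℕ} {m : Fin e →₀ ℕ} (hm : ∀ j, m j ≤ ρ) :
    ∏ j, x j ^ m j ≤ l ^ (e * ρ) * ∏ j, y j ^ m j := by
  have : l ^ (e * ρ) = ∏ _ : Fin e, l ^ ρ := by simp [← pow_mul, mul_comm]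
  rw [this, ← Finset.prod_mul_distrib]
  refine Finset.prod_le_prod (fun j _ => pow_nonneg (hx j) _) fun j _ => ?_
  calc _ ≤ (l * y j) ^ m j := pow_le_pow_left₀ (hx j) (h j) _
    _ = l ^ m j * y j ^ m j := mul_pow _ _ _
    _ ≤ _ := mul_le_mul_of_nonneg_right (pow_le_pow_right₀ l1 (hm j)) (pow_nonneg (hy j) _)

end lip

theorem lip : LIP := fun k Ω _ _ _ _ w E v hk e ρ K _ _ σ u γ P F b l D R ha iP hu hγ hR dR r hD b1
    l1 hb hl => by
  classical
  have hw := v.na
  set T := optionEquivLeft k _ R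
  have iT : Irreducible T := (MulEquiv.irreducible_iff (optionEquivLeft k _)).2 hR
  have rT : (at_ P T).IsRoot F := (at_opt P F R).trans r
  have iη := (tri_mon (u := u) hγ).ind hk hu
  have dT : ∀ i, ∀ m ∈ (T.coeff i).support, ∀ j, m j ≤ ρ := fun i m hm j =>
    by simpa using (monomial_le_degreeOf (some j)
      ((mem_support_coeff_optionEquivLeft k).1 hm)).trans (dR j)
  set f := at_ (fun j => σ (P j)) T
  set g := at_ (fun j => γ j * u j) T
  have iσ : AlgebraicIndependent k fun j => σ (P j) := iP.map' (f := σ) σ.injective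
  have df : f.natDegree = T.natDegree := Polynomial.natDegree_map_eq_of_injective iσ _
  have dg : g.natDegree = T.natDegree := Polynomial.natDegree_map_eq_of_injective iη _
  have g0 : g ≠ 0 := at_ne iη iT.ne_zero
  obtain ⟨x, hx, mx⟩ := g.roots.toFinset.exists_max_image w (by
    simpa using (IsAlgClosed.splits g).roots_ne_zero (dg ▸ at_deg iP iT.ne_zero rT))
  obtain ⟨τ, h1, h2⟩ := ext_root iP ha iη iT rT
    (Polynomial.mem_roots'.1 (Multiset.mem_toFinset.1 hx)).2
  refine ⟨τ, h1, ?_⟩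
  by_cases F0 : F = 0
  · rw [F0, map_zero, map_zero]
    positivity
  have x0 : 0 < w x := w.pos (h2 ▸ (map_ne_zero τ).2 F0)
  have s0 : 0 < w (σ F) := w.pos ((map_ne_zero σ).2 F0)
  have A : ∀ i, w (f.coeff i) ≤ l ^ (e * ρ) * w (g.coeff i) := fun i => by
    rw [Polynomial.coeff_map, Polynomial.coeff_map]
    refine ev_le _ hw _ _ (by positivity) fun m hm => ?_
    refine le_trans ?_ (mul_le_mul_of_nonneg_left (mon_le _ hw hk hu hγ _ m) (by positivity))
    rw [mul_left_comm]
    exact mul_le_mul_of_nonneg_left (prod_lip l1 (fun _ => w.nonneg _) (fun _ => w.nonneg _)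
      (fun j => (hl j).2) (dT i m hm)) (w.nonneg _)
  have B : ∀ i, w (g.coeff i) ≤ l ^ (e * ρ) * (b ^ (e * ρ) * w (f.coeff i)) := fun i => by
    rw [Polynomial.coeff_map, Polynomial.coeff_map]
    refine ev_le _ hw _ _ (by positivity) fun m hm => ?_
    have := isolate v σ hD b1 hb (dT i) hm
    rw [comp_aeval_apply] at this
    refine le_trans ?_ (mul_le_mul_of_nonneg_left this (by positivity))
    simp only [map_mul, (hu _).one, mul_one]
    rw [mul_left_comm]
    exact mul_le_mul_of_nonneg_left (prod_lip l1 (fun _ => w.nonneg _) (fun _ => w.nonneg _)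
      (fun j => (hl j).1) (dT i m hm)) (w.nonneg _)
  have G : ∀ i, w (g.coeff i) * w x ^ i ≤ w (g.coeff T.natDegree) * w x ^ T.natDegree := fun i => by
    refine (g.le_gaussNorm w x0.le i).trans_eq ?_
    rw [gn_roots hw x0, Multiset.map_congr rfl fun z hz => max_eq_left
      (mx z (Multiset.mem_toFinset.2 hz)), Multiset.map_const', Multiset.prod_replicate,
      ← (IsAlgClosed.splits g).natDegree_eq_card_roots, Polynomial.leadingCoeff, dg]
  have f0 : f.coeff T.natDegree ≠ 0 := df ▸ Polynomial.leadingCoeff_ne_zero.2 (at_ne iσ iT.ne_zero)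
  have p := w.pos f0
  obtain ⟨j, j0, hj⟩ := two_of_root hw (at_root σ rT) T.natDegree
    (mul_ne_zero f0 (pow_ne_zero _ ((map_ne_zero σ).2 F0)))
  change w (f.coeff _) * _ ≤ w (f.coeff _) * _ at hj
  have jl : j < T.natDegree := lt_of_le_of_ne (df ▸ Polynomial.le_natDegree_of_ne_zero fun z => by
    rw [z, map_zero, zero_mul] at hj
    exact hj.not_gt (by positivity)) j0
  obtain ⟨d, hd⟩ := Nat.exists_eq_add_of_lt jl
  set Λ := (b * l ^ 2) ^ (e * ρ)
  have Λ1 : 1 ≤ Λ := one_le_pow₀ (one_le_mul_of_one_le_of_one_le b1 (one_le_pow₀ l1))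
  have eΛ : Λ = l ^ (e * ρ) * (l ^ (e * ρ) * b ^ (e * ρ)) := by
    simp only [Λ, sq, mul_pow]
    ring
  have a1 : w (g.coeff j) ≤ w (g.coeff T.natDegree) * w x ^ (d + 1) := by
    have := G j
    rw [show w x ^ T.natDegree = w x ^ (d + 1) * w x ^ j by rw [hd]; ring, ← mul_assoc] at this
    exact le_of_mul_le_mul_right this (by positivity)
  have a2 : w (f.coeff T.natDegree) * w (σ F) ^ (d + 1) ≤ w (f.coeff j) := by
    rw [show w (σ F) ^ T.natDegree = w (σ F) ^ (d + 1) * w (σ F) ^ j by rw [hd]; ring,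
      ← mul_assoc] at hj
    exact le_of_mul_le_mul_right hj (by positivity)
  have a3 : w (σ F) ^ (d + 1) ≤ Λ * w x ^ (d + 1) := by
    refine le_of_mul_le_mul_left (a2.trans ((A j).trans ?_)) p
    calc _ ≤ l ^ (e * ρ) * (l ^ (e * ρ) * (b ^ (e * ρ) * w (f.coeff T.natDegree)) *
          w x ^ (d + 1)) := by
          refine mul_le_mul_of_nonneg_left (a1.trans ?_) (by positivity)
          exact mul_le_mul_of_nonneg_right (B _) (by positivity)
      _ = _ := by
          rw [eΛ]
          ring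
  rw [h2]
  refine le_of_pow_le_pow_left₀ d.succ_ne_zero (by positivity) (a3.trans ?_)
  rw [mul_pow]
  exact mul_le_mul_of_nonneg_right (le_self_pow₀ Λ1 d.succ_ne_zero) (by positivity)

end Vale.Agent.P283B.Mono
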