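import Vale.Agent.P283B.MONO.Br
import Vale.Agent.P283B.MONO.Va4
import Vale.Agent.P283B.MONO.EnSt

/-!
# P283B, block MONO: the engine
-/

set_option linter.unusedSectionVars false

open Set MvPolynomial
open Vale.Agent.P285N.Brep (jac Fr)
open Vale.Agent.P297Z

noncomputable section

namespace Vale.Agent.P283B.Mb

open P287D Mono

theorem deg_pderiv {σ R : Type} [CommRing R] (i : σ) (p : MvPolynomial σ R) :
    (pderiv i p).totalDegree ≤ p.totalDegree := by
  classical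
  refine Finset.sup_le fun μ hμ => ?_
  have h : μ + Finsupp.single i 1 ∈ p.support := mem_support_iff.2 fun e =>
    mem_support_iff.1 hμ (by rw [coeff_pderiv, e, zero_mul])
  refine le_trans ?_ (le_totalDegree h)
  rw [Finsupp.sum_add_index' (fun _ => rfl) fun _ _ _ => rfl]
  exact le_self_add

theorem deg_det {e C : ℕ} {R : Type} [CommRing R] {p : Fin e → MvPolynomial (Fin e) R}
    (h : ∀ j, (p j).totalDegree ≤ C) :
    (Matrix.of fun i j => pderiv i (p j)).det.totalDegree ≤ e * C := by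
  rw [Matrix.det_apply']
  refine totalDegree_finsetSum_le fun σ _ => (totalDegree_mul _ _).trans ?_
  rw [← map_intCast (MvPolynomial.C : R →+* MvPolynomial (Fin e) R), totalDegree_C, zero_add]
  refine (totalDegree_finsetProd _ _).trans ?_
  simpa using Finset.sum_le_card_nsmul Finset.univ _ _ fun j _ => (deg_pderiv (σ j) _).trans (h j)

theorem Sy.pow {F E : Type} [Field F] [Field E] [Algebra F E] {e V : ℕ} {S : ℕ → E → Prop}
    {y : Fin e → E} (h : Sy F V S y) {a : ℕ} {f : E} (k : S a f) (r : ℕ) : S (r * a) (f ^ r) := by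
  induction r with
  | zero => simpa using h.pol 1 (k := 0) (by simp)
  | succ r ih => rw [pow_succ, add_mul, one_mul]; exact h.mul ih k

section tower

variable {L K Ω : Type} [Field L] [Field K] [Field Ω] [Algebra ℂ L] [Algebra ℂ K] [Algebra ℂ Ω]
  [Algebra L K] [Algebra L Ω] [Algebra K Ω] [IsScalarTower ℂ L K] [IsScalarTower ℂ K Ω]
  [IsScalarTower L K Ω] [Algebra.IsAlgebraic K Ω] [IsAlgClosed Ω] {w : AbsoluteValue Ω ℝ}
  {P : Pl K} {Q : Pl L} {e m : ℕ} {z : Fin m → L}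

theorem sum_co (l : Lies (algebraMap L K) P Q) (a : Cb.Ada Q Q.t z) (x : Fin e → K) :
    ∑ i, (P.ord (co x (bq Q z) i) : ℝ) =
      ∑ j, (P.ord (x j) : ℝ) + P.ord (algebraMap L K Q.t) := by
  rw [Fin.sum_univ_add, Fin.sum_univ_succ]
  simp only [co_l, co_r, Fin.cons_zero, Fin.cons_succ, l.ord (z _), (a.ord_u _).2, mul_zero,
    Int.cast_zero, Finset.sum_const_zero, add_zero]

theorem alg_top {x : Fin e → K} (h : FiniteDimensional (IntermediateField.adjoin L (range x)) K) :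
    Algebra.IsAlgebraic (Algebra.adjoin L (range x)) K :=
  IntermediateField.isAlgebraic_adjoin_iff_top.1 inferInstance

theorem log_prod {γ : Fin e → Ω} (h : ∀ j, γ j ≠ 0) :
    Real.log (∏ j, w (γ j)) = ∑ j, Real.log (w (γ j)) :=
  Real.log_prod fun j _ => (w.pos (h j)).ne'

/-- the bounded chart -/
theorem exists_chart (e c : ℕ) : ∃ C : ℕ, ∀ (m : ℕ) (L K : Type) [Field L] [Field K] [Algebra ℂ L]
    [Algebra ℂ K] [Algebra L K] [IsScalarTower ℂ L K] (Q : Pl L) (z : Fin m → L) (y : Fin e → K)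
    (P : Pl K) (h : K) (N : ℕ) (a : ℝ) (R : MvPolynomial (Option (Fin e)) L),
    FF K (e + (m + 1)) → FF L (m + 1) → Cb.Ada Q Q.t z → Lies (algebraMap L K) P Q →
    AlgebraicIndependent L y → FiniteDimensional (IntermediateField.adjoin L (range y)) K →
    h ≠ 0 → R ≠ 0 → R.totalDegree ≤ c → aeval (fun o => Option.elim o h y) R = 0 → 0 < N →
    (∀ P', Lies (algebraMap L K) P' Q → 0 ≤ P'.ord h + N * lA Q z y P') →
    P.ord h + N * lA Q z y P ≤ N * a → ∃ p : Fin e → MvPolynomial (Fin e) L,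
      (∀ j, (p j).totalDegree ≤ C) ∧ jc y p ≠ 0 ∧
      lA Q z y P + P.ord (jc y p) - ∑ j, (P.ord (aeval y (p j)) : ℝ) ≤ C * a := by
  obtain ⟨C, hC⟩ := chart e c
  refine ⟨C, fun m L K _ _ _ _ _ _ Q z y P h N a R hK hL ad l hy fin h0 R0 hR r N0 H H' => ?_⟩
  obtain ⟨w, hw, hP, h1⟩ := exists_w (Ω := AlgebraicClosure K) P
  have v := vs hw hP l
  obtain ⟨u, γ, hu, ht⟩ := tw L _ w _ v base_mem e _ (tw_hyp hK hw hP l hy)
  let ι := IsScalarTower.toAlgHom L K (AlgebraicClosure K)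
  have h2 : ∑ j, Real.log (w (γ j)) = -lA Q z y P := by
    obtain ⟨R, a1, -, c, -, a2, a3⟩ := br hK hL hw hP l ad hu ι hy ht
    obtain rfl : R = P := Pb.pl_ext (ValuationSubring.ext _ _ fun f => (a1 f).trans (hP f).symm)
    have := (a2 R.t).symm.trans (h1 R.t)
    rw [R.ord_t, Int.cast_one, mul_one] at this
    rw [a3, this, neg_one_mul]
  have pp : ∀ {γ : Fin e → AlgebraicClosure K}, (∀ j, γ j ≠ 0) → 0 < ∏ j, w (γ j) := fun h =>
    Finset.prod_pos fun j _ => w.pos (h j)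
  obtain ⟨p, b1, b2, b3⟩ := hC L _ w _ v base_mem K ι u γ y h N (Real.exp a) R (alg_top fin) hu ht
    h0 R0 hR r N0 (Real.exp_pos a).le (fun τ γ' ht' => by
      obtain ⟨R, -, a1, c, c0, a2, a3⟩ := br hK hL hw hP l ad hu τ hy ht'
      have k := w.pos ((map_ne_zero τ).2 h0)
      rw [← Real.log_nonpos_iff (mul_pos k (pow_pos (pp ht'.ne) N)).le,
        Real.log_mul k.ne' (pow_pos (pp ht'.ne) N).ne', Real.log_pow, log_prod ht'.ne, a2, a3]
      nlinarith [mul_nonneg c0.le (H R a1)]) (by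
      have k := w.pos ((map_ne_zero ι).2 h0)
      have k' := mul_pos (Real.exp_pos a) (pp ht.ne)
      rw [← Real.log_nonneg_iff (mul_pos k (pow_pos k' N)), Real.log_mul k.ne' (pow_pos k' N).ne',
        Real.log_pow, Real.log_mul (Real.exp_pos a).ne' (pp ht.ne).ne', Real.log_exp,
        log_prod ht.ne, h2]
      have := h1 h
      change Real.log (w (ι h)) = _ at this
      linarith)
  refine ⟨p, b1, b2, ?_⟩
  obtain ⟨D, hD⟩ := Cb.fr_of hK (co_ind hy ad.indep)
  have x0 : ∀ j, ι (aeval y (p j)) ≠ 0 := fun j => (map_ne_zero ι).2 (by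
    have := ((Cb.jac_ne_iff hD _).1 (jac_jc hL ad.indep hD p ▸ b2)).ne_zero (Fin.castAdd _ j)
    rwa [co_l] at this)
  have k := w.pos ((map_ne_zero ι).2 b2)
  have := Real.log_le_log (pp x0) b3
  rw [Real.log_mul (mul_pos (pow_pos (Real.exp_pos a) C) k).ne' (pp ht.ne).ne',
    Real.log_mul (pow_pos (Real.exp_pos a) C).ne' k.ne', Real.log_pow, Real.log_exp, log_prod ht.ne,
    log_prod x0, h2, show Real.log (w (ι _)) = _ from h1 _,
    Finset.sum_congr rfl fun j _ => show Real.log (w (ι _)) = _ from h1 (aeval y (p j)),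
    Finset.sum_neg_distrib] at this
  linarith

/-- a place over a rational monomial point near `P` -/
theorem near (hK : FF K (e + (m + 1))) (hL : FF L (m + 1)) (ad : Cb.Ada Q Q.t z)
    (l : Lies (algebraMap L K) P Q) {x : Fin e → K} (hx : AlgebraicIndependent L x)
    (fin : FiniteDimensional (IntermediateField.adjoin L (range x)) K) {q : ℕ} (q0 : 0 < q)
    {ζ : Fin e → ℤ} {η : ℝ} (η0 : 0 ≤ η)
    (hζ : ∀ j, |q * ((P.ord (x j) : ℝ) / P.ord (algebraMap L K Q.t)) - ζ j| ≤ η) :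
    ∃ U : Set (Pl K), U.Finite ∧ (∀ P' ∈ U, Lies (algebraMap L K) P' Q) ∧
      ∀ (F : K) (ρ : ℕ) (R : MvPolynomial (Option (Fin e)) L), F ≠ 0 → Irreducible R →
        (∀ j, R.degreeOf (some j) ≤ ρ) → aeval (fun o => Option.elim o F x) R = 0 →
        ∃ P' ∈ U, ∃ c : ℝ, 0 < c ∧ lA Q z x P' = ∑ j, (P'.ord (x j) : ℝ) ∧
          (P.ord (algebraMap L K Q.t) : ℝ) ≤
            q * Module.finrank (IntermediateField.adjoin L (range x)) K * c ∧
          c * P'.ord F ≤ P.ord F + e * ρ * (lA Q z x P - ∑ j, (P.ord (x j) : ℝ) +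
            2 * (P.ord (algebraMap L K Q.t) * η / q)) := by
  obtain ⟨w, hw, hP, h1⟩ := exists_w (Ω := AlgebraicClosure K) P
  have v := vs hw hP l
  obtain ⟨u, -, hu, -⟩ := tw L _ w _ v base_mem e _ (tw_hyp hK hw hP l hx)
  let ι := IsScalarTower.toAlgHom L K (AlgebraicClosure K)
  choose γ g1 g2 using fun j => exists_root (Ω := AlgebraicClosure K) (Q.t ^ ζ j) q0
  set μ : ℝ := ((P.ord (algebraMap L K Q.t) : ℤ) : ℝ) with hμ
  have μ0 : 0 < μ := by rw [hμ]; exact_mod_cast l.e_pos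
  have q1 : (0 : ℝ) < q := by exact_mod_cast q0
  have hb : ∀ c : L, Real.log (w (algebraMap L _ c)) = -(μ * Q.ord c) := fun c => by
    rw [IsScalarTower.algebraMap_apply L K, h1, l.ord]
    push_cast
    rfl
  have g0 : ∀ j, γ j ≠ 0 := fun j h => (map_ne_zero (algebraMap L (AlgebraicClosure K))).2
    (zpow_ne_zero (ζ j) Q.t_ne) (by rw [← g2, h, zero_pow q0.ne'])
  have g3 : ∀ j, Real.log (w (γ j)) = -(μ * ζ j / q) := fun j => by
    have := congrArg (fun a => Real.log (w a)) (g2 j)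
    simp only [map_pow, Real.log_pow, hb, Pl.ord_zpow, Q.ord_t, mul_one] at this
    field_simp
    linarith
  have hγ : ∀ j, γ j ∈ bs L (AlgebraicClosure K) ∧ γ j ≠ 0 := fun j => ⟨g1 j, g0 j⟩
  have tri : ∀ τ : K →ₐ[L] AlgebraicClosure K, (∀ j, τ (x j) = γ j * u j) →
      Tri (bs L _) u (fun j => τ (x j)) γ := fun τ h => funext h ▸ tri_mon hγ
  have fi := fine L K _ e x (fun j => γ j * u j) fin
  refine ⟨{P' | Lies (algebraMap L K) P' Q ∧ ∃ τ : K →ₐ[L] AlgebraicClosure K,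
    (∀ j, τ (x j) = γ j * u j) ∧ Pw w τ P'}, ?_, fun _ h => h.1, fun F ρ R F0 hR dR r => ?_⟩
  · refine (fi.biUnion (t := fun τ => {P' | Pw w τ P'}) fun τ _ => Subsingleton.finite
      fun a ha b hb => Pb.pl_ext (ValuationSubring.ext _ _ fun f =>
        (ha f).trans (hb f).symm)).subset ?_
    rintro P' ⟨-, τ, a, b⟩
    exact mem_biUnion a b
  obtain ⟨D, hD⟩ := Cb.fr_of hK (co_ind hx ad.indep)
  have k2 := Cb.sum_le_kap hK (co_ind hx ad.indep) P
  rw [sum_co l ad] at k2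
  set A := lA Q z x P - ∑ j, (P.ord (x j) : ℝ) with hA
  have A0 : 0 ≤ A := by rw [hA, lA]; linarith
  have l0 : 0 ≤ μ * η / q := by positivity
  have hi : ∀ f, f ≠ 0 → w (ι f) = Real.exp (-P.ord f) := fun f f0 => by
    rw [← h1, Real.exp_log (w.pos ((map_ne_zero _).2 f0))]
    rfl
  obtain ⟨τ, t1, t2⟩ := lip L _ w _ v base_mem e ρ K ι u γ x F (Real.exp A)
    (Real.exp (μ * η / q)) (fd hL ad.indep hD) R (alg_top fin) hx hu hγ hR dR r (fun i j => by
      have := hD.dual (Fin.castAdd _ i) (Fin.castAdd _ j)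
      rw [co_l] at this
      change D _ _ = _
      simpa using this) (Real.one_le_exp A0) (Real.one_le_exp l0) (fun j f => by
      change w (ι (x j * D _ f)) ≤ _
      by_cases d0 : D (Fin.castAdd _ j) f = 0
      · rw [d0, mul_zero, map_zero, map_zero]
        positivity
      have := der_le (P := P) hK hD _ d0
      rw [sum_co l ad, co_l] at this
      rw [hi _ (mul_ne_zero (hx.ne_zero j) d0), hi f (fun h => d0 (by rw [h, map_zero])),
        ← Real.exp_add, Real.exp_le_exp, hA, lA]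
      linarith) (fun j => by
      have := hζ j
      rw [show q * ((P.ord (x j) : ℝ) / μ) - ζ j = (P.ord (x j) - μ * ζ j / q) * (q / μ) by
        field_simp, abs_mul, abs_of_pos (div_pos q1 μ0), ← le_div_iff₀ (div_pos q1 μ0),
        show η / (q / μ) = μ * η / q by field_simp, abs_le] at this
      rw [hi _ (hx.ne_zero j), ← Real.exp_log (w.pos (g0 j)), g3, ← Real.exp_add, ← Real.exp_add,
        Real.exp_le_exp, Real.exp_le_exp]
      constructor <;> linarith [this.1, this.2])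
  obtain ⟨P', a1, a2, c, c0, a3, a4⟩ := br hK hL hw hP l ad hu τ hx (tri τ t1)
  refine ⟨P', ⟨a2, τ, t1, a1⟩, c, c0, ?_, ?_, ?_⟩
  · refine mul_left_cancel₀ (neg_ne_zero.2 c0.ne') ?_
    rw [← a4, Finset.mul_sum]
    exact Finset.sum_congr rfl fun j _ => by rw [← a3, t1, map_mul, (hu j).one, mul_one]
  · obtain ⟨i, a, ξ, i0, i1, a0, h⟩ := ram L _ w _ v base_mem e K τ u γ x P'.t fin hu hγ t1 P'.t_ne
    have := congrArg Real.log h
    rw [Real.log_pow, a3, P'.ord_t, Real.log_mul (w.pos ((map_ne_zero _).2 a0)).ne'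
      (Finset.prod_pos fun j _ => zpow_pos (w.pos (g0 j)) _).ne',
      Real.log_prod fun j _ => (zpow_pos (w.pos (g0 j)) _).ne', hb] at this
    simp only [Real.log_zpow, g3] at this
    have e1 : (q * i * c : ℝ) = μ * (q * Q.ord a + ∑ j, ξ j * ζ j : ℤ) := by
      have e2 : ∑ j, (ξ j : ℝ) * -(μ * ζ j / q) = -(μ / q) * ∑ j, (ξ j : ℝ) * ζ j := by
        rw [Finset.mul_sum]
        exact Finset.sum_congr rfl fun j _ => by ring
      rw [e2] at this
      push_cast at this ⊢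
      field_simp at this
      linarith
    have i2 : (0 : ℝ) < i := by exact_mod_cast i0
    have e3 : (1 : ℝ) ≤ (q * Q.ord a + ∑ j, ξ j * ζ j : ℤ) := by
      exact_mod_cast Int.cast_pos (R := ℝ).1 ((mul_pos_iff_of_pos_left μ0).1
        (by rw [← e1]; positivity))
    calc μ ≤ q * i * c := e1 ▸ le_mul_of_one_le_right μ0.le e3
      _ ≤ _ := by gcongr
  · have := Real.log_le_log (w.pos ((map_ne_zero ι).2 F0)) t2
    rw [Real.log_mul (by positivity) (w.pos ((map_ne_zero τ).2 F0)).ne', Real.log_pow,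
      Real.log_mul (by positivity) (by positivity), Real.log_pow, Real.log_exp, Real.log_exp, a3,
      hi F F0, Real.log_exp] at this
    push_cast at this
    linarith

end tower

theorem arith {d s ε μ r q M a A C c X Y : ℝ} (d0 : 0 < d) (s0 : 0 ≤ s) (ε0 : 0 < ε) (μ0 : 0 < μ)
    (r1 : 0 < r) (q2 : 0 < q) (q3 : q ≤ M) (a0 : 0 ≤ a) (A0 : 0 ≤ A) (p3 : A ≤ C * a) (C0 : 0 ≤ C)
    (c0 : 0 < c) (e3 : μ ≤ q * d * c)
    (d3 : c * X ≤ Y + r * s * (A + 2 * (μ * (ε / (4 * d * (s + 1))) / q))) (h3 : r * ε ≤ X)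
    (h4 : Y + r * A ≤ r * a) : ε / (2 * d * M * (1 + s * C)) * μ ≤ a := by
  have M0 := q2.trans_le q3
  have e2 : c * ε ≤ a + s * (C * a + 2 * (μ * (ε / (4 * d * (s + 1))) / q)) := by
    have := mul_le_mul_of_nonneg_left h3 c0.le
    have k4 := mul_le_mul_of_nonneg_left p3 (mul_nonneg r1.le s0)
    have k5 := mul_nonneg r1.le A0
    refine le_of_mul_le_mul_left ?_ r1
    linarith
  have e4 : q * d * (s * (2 * (μ * (ε / (4 * d * (s + 1))) / q))) ≤ μ * ε / 2 := by
    rw [show q * d * (s * (2 * (μ * (ε / (4 * d * (s + 1))) / q))) = μ * ε / 2 * (s / (s + 1)) by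
      field_simp; ring]
    exact mul_le_of_le_one_right (by positivity) ((div_le_one (by positivity)).2 (by linarith))
  have e5 : μ * ε / 2 ≤ M * d * (a + s * (C * a)) := by
    have k6 := mul_le_mul_of_nonneg_left e2 (mul_pos q2 d0).le
    have k7 := mul_le_mul_of_nonneg_right e3 ε0.le
    have k8 : q * d * (a + s * (C * a)) ≤ M * d * (a + s * (C * a)) := by gcongr
    linarith
  rw [div_mul_eq_mul_div, div_le_iff₀ (by positivity)]
  linarith

/-- **ENGR** -/
theorem engr : ENGR := fun e V N k ε N0 ε0 => by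
  obtain ⟨C, hC⟩ := exists_chart e (V * 1 ^ e + e * (V * ((N * k + N * 0) * 1 ^ (e - 1))))
  let d : ℝ := (V * C ^ e : ℕ) + 1
  let s : ℝ := (e * (V * ((k + 0 + (e * C + e * C)) * C ^ (e - 1))) : ℕ)
  have d0 : 0 < d := by positivity
  have s0 : 0 ≤ s := by positivity
  obtain ⟨M, hM⟩ := dir e (ε / (4 * d * (s + 1))) (by positivity)
  refine ⟨ε / (2 * d * (M + 1) * (1 + s * C)), by positivity, ?_⟩
  intro n m K _ _ L Q S y T a hK hL hn hS l H
  subst hn
  obtain ⟨z, ad⟩ := Cb.exists_ada hL Q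
  have H' := H (co (e := e) (m := m + 1) y (bq Q z)) (co_ind hS.ind ad.indep) fun i =>
    Fin.addCases (m := e) (n := m + 1) (fun j => .inr ⟨j, (co_l _ _ _).symm⟩)
      (fun j => .inl (co_r y (bq Q z) j ▸ (bq Q z j).2)) i
  clear H
  obtain ⟨⟨h, h0, h1, h2, h3⟩, r, r0, H⟩ := H'
  have t0 : algebraMap L K Q.t ≠ 0 := (map_ne_zero _).2 Q.t_ne
  have st : S 0 (algebraMap L K Q.t) := by simpa using hS.pol (MvPolynomial.C Q.t) (k := 0) (by simp)
  have sy : ∀ i, S 1 (y i) := fun i => by simpa using hS.pol (X i) (k := 1) (by simp)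
  have tw : ∀ (f : K) (j : ℕ) (P : Pl K), f ≠ 0 → P.ord (f * algebraMap L K Q.t ^ j) +
      j * lA Q z y P = P.ord f + j * (kap (co y (bq Q z)) P + 1) := fun f j P f0 => by
    rw [Pl.ord_mul _ f0 (pow_ne_zero _ t0), Pl.ord_pow, lA]
    push_cast
    ring
  have a0 : 0 ≤ a := nonneg_of_mul_nonneg_right ((h2 T l).trans h3) (Nat.cast_pos.2 N0)
  obtain ⟨R, b1, b2, -, b3⟩ := hS.rel y 1 _ _ hS.ind sy (hS.mul h1 (hS.pow st N))
  obtain ⟨p, p1, p2, p3⟩ := hC m L K Q z y T _ N a R hK hL ad l hS.ind (hS.deg y 1 hS.ind sy).1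
    (mul_ne_zero h0 (pow_ne_zero _ t0)) b1.ne_zero b3 b2 N0
    (fun P hP => tw h N P h0 ▸ h2 P hP) (tw h N T h0 ▸ h3)
  replace hK : FF K (e + (m + 1)) := hK
  obtain ⟨D, hD⟩ := Cb.fr_of hK (co_ind hS.ind ad.indep)
  have : CharZero L := charZero_of_injective_algebraMap (algebraMap ℂ L).injective
  have j1 := jac_jc hL ad.indep hD p
  have hx : AlgebraicIndependent L fun j => aeval y (p j) :=
    P285N.Brep.TbAux.ind (fd hL ad.indep hD) _ (by
      rw [jac_co hL ad.indep hD] at j1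
      exact fun k => p2 (j1.symm.trans k))
  have lx : ∀ P, lA Q z (fun j => aeval y (p j)) P = lA Q z y P + P.ord (jc y p) := fun P => by
    rw [lA, lA, Cb.kap_chg hD (j1 ▸ p2), j1, Pi.add_apply, dv]
    ring
  have sx : ∀ j, S C (aeval y (p j)) := fun j => hS.pol _ (p1 j)
  obtain ⟨fin, rk⟩ := hS.deg _ C hx sx
  obtain ⟨q, ζ, q0, q1, hζ⟩ := hM fun j =>
    (T.ord (aeval y (p j)) : ℝ) / T.ord (algebraMap L K Q.t)
  obtain ⟨U, u1, u2, u3⟩ := near hK hL ad l hx fin q0 (by positivity) hζ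
  obtain ⟨F, F0, f1, f2, f3⟩ := H U u1 u2
  have sg : S (e * C + e * C) ((∏ j, aeval y (p j)) * (jc y p)⁻¹) := by
    refine hS.mul (map_prod (aeval y) p Finset.univ ▸ hS.pol _ ((totalDegree_finsetProd _ _).trans
      (by simpa using Finset.sum_le_card_nsmul Finset.univ _ _ fun j _ => p1 j))) (hS.inv ?_)
    have := hS.pol _ (deg_det p1)
    rwa [AlgHom.map_det] at this
  have g0 := mul_ne_zero (Finset.prod_ne_zero_iff.2 fun j (_ : j ∈ Finset.univ) => hx.ne_zero j)
    (inv_ne_zero p2)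
  have F1 := mul_ne_zero F0 (pow_ne_zero r t0)
  obtain ⟨R', c1, c2, c3, -⟩ := hS.rel _ C _ _ hx sx
    (hS.mul (hS.mul f1 (hS.pow st r)) (hS.pow sg r))
  obtain ⟨P, hP, c, c0, d1, d2, d3⟩ := u3 _ _ R' (mul_ne_zero F1 (pow_ne_zero r g0)) c1 c3 c2
  have key : ∀ P : Pl K, (P.ord (F * algebraMap L K Q.t ^ r *
      ((∏ j, aeval y (p j)) * (jc y p)⁻¹) ^ r) : ℝ) + r * (lA Q z (fun j => aeval y (p j)) P -
        ∑ j, (P.ord (aeval y (p j)) : ℝ)) = P.ord F + r * (kap (co y (bq Q z)) P + 1) := by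
    intro P
    rw [← tw F r P F0, Pl.ord_mul _ F1 (pow_ne_zero r g0), Pl.ord_pow _ (_ * _),
      Pl.ord_mul _ (left_ne_zero_of_mul g0) (inv_ne_zero p2), Pl.ord_inv,
      P.ord_prod _ fun j _ => hx.ne_zero j, lx]
    push_cast
    ring
  have k1 := key P
  have k2 := key T
  have k3 := Cb.sum_le_kap hK (co_ind hx ad.indep) T
  rw [sum_co l ad] at k3
  rw [d1, sub_self, mul_zero, add_zero] at k1
  rw [← lx] at p3
  set A := lA Q z (fun j => aeval y (p j)) T - ∑ j, (T.ord (aeval y (p j)) : ℝ) with hA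
  have A0 : 0 ≤ A := by rw [hA, lA]; linarith
  set μ : ℝ := ((T.ord (algebraMap L K Q.t) : ℤ) : ℝ) with hμ
  have μ0 : 0 < μ := by rw [hμ]; exact_mod_cast l.e_pos
  have r1 : (0 : ℝ) < r := by exact_mod_cast r0
  have q2 : (0 : ℝ) < q := by exact_mod_cast q0
  have q3 : (q : ℝ) ≤ M + 1 := by exact_mod_cast q1.trans (Nat.le_succ M)
  have e1 : (e : ℝ) * (V * ((r * k + r * 0 + r * (e * C + e * C)) * C ^ (e - 1)) : ℕ) = r * s := by
    simp only [s]
    push_cast
    ring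
  rw [e1] at d3
  exact arith d0 s0 ε0 μ0 r1 q2 q3 a0 A0 p3 (Nat.cast_nonneg C) c0 (d2.trans (by
    gcongr
    exact (Nat.cast_le.2 rk).trans (le_add_of_nonneg_right zero_le_one))) d3 (k1 ▸ f3 P hP)
    (k2 ▸ f2)

end Vale.Agent.P283B.Mb
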