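import Vale.Agent.P283B.MONO.Sms
import Vale.Agent.P283B.MONO.Eng

/-!
# P283B, block MONO: the step SMS
-/

namespace Vale.Agent.P283B

theorem sms : SMS := Mo.sms_of' Mb.engr

end Vale.Agent.P283B
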