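import Mathlib

/-!
# P283B, block MONO: irreducible relations and their degrees (pure algebra)
-/

open Set MvPolynomial
open IntermediateField (adjoin)

noncomputable section

namespace Vale.Agent.P283B.Mo

variable {F E : Type} [Field F] [Field E] [Algebra F E] {e : ℕ}

/-- common denominators -/
theorem den {σ ι : Type} [Fintype ι] (b : σ → E) (r : ι → adjoin F (range b)) :
    ∃ (q : MvPolynomial σ F) (p : ι → MvPolynomial σ F), aeval b q ≠ 0 ∧
      ∀ i, aeval b (p i) = r i * aeval b q := by
  classical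
  have h : ∀ i, ∃ p q : MvPolynomial σ F, aeval b q ≠ 0 ∧ aeval b p = r i * aeval b q := fun i => by
    obtain ⟨p, q, h⟩ := (IntermediateField.mem_adjoin_range_iff F b _).1 (r i).2
    by_cases k : aeval b q = 0
    · exact ⟨0, 1, by simp, by simp [h, k]⟩
    · exact ⟨p, q, k, by rw [h, div_mul_cancel₀ _ k]⟩
  choose p q a c using h
  refine ⟨∏ i, q i, fun i => p i * ∏ j ∈ Finset.univ.erase i, q j, ?_, fun i => ?_⟩
  · rw [map_prod]
    exact Finset.prod_ne_zero_iff.2 fun i _ => a i
  · rw [map_mul, c, mul_assoc, ← map_mul, Finset.mul_prod_erase _ _ (Finset.mem_univ i)]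

theorem aeval_fin (a : Fin (e + 1) → E) (G : MvPolynomial (Fin (e + 1)) F) :
    (finSuccEquiv F e G).eval₂ (aeval (Fin.tail a) : MvPolynomial (Fin e) F →ₐ[F] E).toRingHom
      (a 0) = aeval a G := by
  induction G using MvPolynomial.induction_on with
  | C c => simp [finSuccEquiv_apply]
  | add p q hp hq => rw [map_add, Polynomial.eval₂_add, hp, hq, map_add]
  | mul_X p i hp =>
    rw [map_mul, Polynomial.eval₂_mul, hp, map_mul, aeval_X]
    refine congrArg _ (Fin.cases ?_ (fun i => ?_) i)
    · rw [finSuccEquiv_X_zero, Polynomial.eval₂_X]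
    · rw [finSuccEquiv_X_succ, Polynomial.eval₂_C]
      exact aeval_X _ _

/-- a relation of small degree in the first variable -/
theorem exists_rel0 (a : Fin (e + 1) → E) (D : ℕ) (h : AlgebraicIndependent F (Fin.tail a) →
    FiniteDimensional (adjoin F (range (Fin.tail a))) E ∧
      Module.finrank (adjoin F (range (Fin.tail a))) E ≤ D) :
    ∃ G : MvPolynomial (Fin (e + 1)) F, G ≠ 0 ∧ aeval a G = 0 ∧ degreeOf 0 G ≤ D := by
  suffices ∃ G : Polynomial (MvPolynomial (Fin e) F), G ≠ 0 ∧
      G.eval₂ (aeval (Fin.tail a) : MvPolynomial (Fin e) F →ₐ[F] E).toRingHom (a 0) = 0 ∧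
        G.natDegree ≤ D by
    obtain ⟨G, x, y, z⟩ := this
    refine ⟨(finSuccEquiv F e).symm G, by simpa using x, ?_, ?_⟩
    · rw [← aeval_fin, AlgEquiv.apply_symm_apply, y]
    · rwa [← natDegree_finSuccEquiv, AlgEquiv.apply_symm_apply]
  by_cases i : AlgebraicIndependent F (Fin.tail a)
  · obtain ⟨f, d⟩ := h i
    have n : ¬ LinearIndependent (adjoin F (range (Fin.tail a))) fun i : Fin (D + 1) => a 0 ^ i.1 :=
      fun k => by
        have := k.fintype_card_le_finrank
        rw [Fintype.card_fin] at this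
        omega
    obtain ⟨r, s, j, t⟩ := Fintype.not_linearIndependent_iff.1 n
    obtain ⟨q, p, u, v⟩ := den (Fin.tail a) r
    refine ⟨∑ i : Fin (D + 1), Polynomial.monomial i.1 (p i), fun k => ?_, ?_, ?_⟩
    · have := congrArg (Polynomial.coeff · j.1) k
      simp only [Polynomial.finsetSum_coeff, Polynomial.coeff_monomial, Fin.val_inj,
        Finset.sum_ite_eq', Finset.mem_univ, if_true, Polynomial.coeff_zero] at this
      have w := v j
      rw [this, map_zero] at w
      exact mul_ne_zero (by simpa using t) u w.symm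
    · rw [Polynomial.eval₂_finsetSum]
      have := congrArg (· * aeval (Fin.tail a) q) s
      simp only [Finset.sum_mul, zero_mul] at this
      rw [← this]
      refine Finset.sum_congr rfl fun i _ => ?_
      rw [Polynomial.eval₂_monomial, Algebra.smul_def]
      change aeval (Fin.tail a) (p i) * _ = _
      rw [v]
      exact mul_right_comm _ _ _
    · exact Polynomial.natDegree_sum_le_of_forall_le _ _ fun i _ =>
        (Polynomial.natDegree_monomial_le _).trans (Nat.lt_succ_iff.1 i.2)
  · rw [algebraicIndependent_iff] at i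
    push Not at i
    obtain ⟨p, x, y⟩ := i
    exact ⟨Polynomial.C p, by simpa using y, by simpa using x, by simp⟩

/-- a relation of small degree in a given variable -/
theorem exists_rel (a : Fin (e + 1) → E) (o : Fin (e + 1)) (D : ℕ)
    (h : AlgebraicIndependent F (fun i => a (o.succAbove i)) →
    FiniteDimensional (adjoin F (range fun i => a (o.succAbove i))) E ∧
      Module.finrank (adjoin F (range fun i => a (o.succAbove i))) E ≤ D) :
    ∃ G : MvPolynomial (Fin (e + 1)) F, G ≠ 0 ∧ aeval a G = 0 ∧ degreeOf o G ≤ D := by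
  have k : Fin.tail (a ∘ o.cycleRange.symm) = fun i => a (o.succAbove i) :=
    funext fun i => congrArg a (Fin.cycleRange_symm_succ o i)
  obtain ⟨G, x, y, z⟩ := exists_rel0 (F := F) (a ∘ o.cycleRange.symm) D (k ▸ h)
  refine ⟨rename o.cycleRange.symm G,
    (map_ne_zero_iff _ (rename_injective _ o.cycleRange.symm.injective)).2 x,
    by rw [aeval_rename, y], ?_⟩
  rwa [← degreeOf_rename_of_injective o.cycleRange.symm.injective 0, Fin.cycleRange_symm_zero] at z

/-- an irreducible relation divides every relation -/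
theorem dvd_rel {A : Type} [CommRing A] [IsDomain A] [UniqueFactorizationMonoid A] {ψ : A →+* E}
    (hψ : Function.Injective ψ) {R G : Polynomial A} {f : E} (hR : Irreducible R)
    (h : R.eval₂ ψ f = 0) (h' : G.eval₂ ψ f = 0) : 0 < R.natDegree ∧ R ∣ G := by
  classical
  have d : R.natDegree ≠ 0 := fun k => by
    rw [Polynomial.eq_C_of_natDegree_eq_zero k, Polynomial.eval₂_C] at h
    exact hR.ne_zero (by
      rw [Polynomial.eq_C_of_natDegree_eq_zero k, hψ (h.trans (map_zero ψ).symm), map_zero])
  refine ⟨Nat.pos_of_ne_zero d, ?_⟩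
  let χ : FractionRing A →+* E := IsFractionRing.lift hψ
  have c : χ.comp (algebraMap A _) = ψ := RingHom.ext (IsFractionRing.lift_algebraMap hψ)
  have p := hR.isPrimitive d
  have i := (p.irreducible_iff_irreducible_map_fraction_map (K := FractionRing A)).1 hR
  refine p.dvd_of_fraction_map_dvd_fraction_map (K := FractionRing A)
    ((i.isCoprime_or_dvd _).resolve_left fun ⟨u, v, w⟩ => ?_)
  have := congrArg (Polynomial.eval₂ χ f) w
  simp [Polynomial.eval₂_add, Polynomial.eval₂_mul, Polynomial.eval₂_map, c, h, h'] at this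

/-- **REL**: the irreducible relation and its degrees -/
theorem rel (a : Fin (e + 1) → E) (ha : AlgebraicIndependent F (Fin.tail a)) (D : Fin (e + 1) → ℕ)
    (h : ∀ o : Fin (e + 1), AlgebraicIndependent F (fun i => a (o.succAbove i)) →
      FiniteDimensional (adjoin F (range fun i => a (o.succAbove i))) E ∧
        Module.finrank (adjoin F (range fun i => a (o.succAbove i))) E ≤ D o) :
    ∃ R : MvPolynomial (Fin (e + 1)) F, Irreducible R ∧ aeval a R = 0 ∧ 0 < degreeOf 0 R ∧
      (∀ o, degreeOf o R ≤ D o) ∧ ∀ G, aeval a G = 0 → R ∣ G := by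
  classical
  have ex : ∃ d, ∃ G : MvPolynomial (Fin (e + 1)) F, G ≠ 0 ∧ aeval a G = 0 ∧ G.totalDegree = d :=
    let ⟨G, x, y, _⟩ := exists_rel a 0 _ (h 0)
    ⟨_, G, x, y, rfl⟩
  obtain ⟨R, x, y, z⟩ := Nat.find_spec ex
  have i : Irreducible R := irreducible_of_forall_totalDegree_le
    (fun G p q => z ▸ Nat.find_min' ex ⟨G, p, q, rfl⟩) x y
  have k := fun G (p : aeval a G = 0) => dvd_rel (ψ := (aeval (Fin.tail a) :
    MvPolynomial (Fin e) F →ₐ[F] E).toRingHom) ha (i.map (finSuccEquiv F e))
    ((aeval_fin a R).trans y) ((aeval_fin a G).trans p)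
  have l : ∀ G, aeval a G = 0 → R ∣ G := fun G p => by
    simpa using map_dvd (finSuccEquiv F e).symm (k G p).2
  refine ⟨R, i, y, natDegree_finSuccEquiv R ▸ (k R y).1, fun o => ?_, l⟩
  obtain ⟨G, u, v, w⟩ := exists_rel a o _ (h o)
  obtain ⟨H, rfl⟩ := l G v
  rw [degreeOf_mul_eq (left_ne_zero_of_mul u) (right_ne_zero_of_mul u)] at w
  omega

end Vale.Agent.P283B.Mo
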