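import Vale.Agent.P283B.MONO.Deg
import Vale.Agent.P283B.MONO.EnSt
import Vale.Agent.P283B.Tool.Mmp
import Vale.Agent.P287D.Va.Des

/-!
# P283B, block MONO: from the valuative engine to the step `SMS`
-/

set_option linter.unusedVariables false

open Set
open Vale.Agent.P287D

noncomputable section

namespace Vale.Agent.P283B.Mo

section

variable {K : Type} [Field K] [Algebra ℂ K] {n e : ℕ} {Λ Γ : BD K} {s₀ : Finset K}

/-- the log discrepancy of the form `h (dw) ^ N`, multiplied by `N` -/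
def lw (w : Fin (n + 1) → K) (N : ℕ) (h : K) (P : Pl K) : ℝ := P.ord h + N * (kap w P + 1)

/-- the data of the engine for the coordinates `w`: a bounded lc form and `ε`-lc forms -/
structure Dat (L : IntermediateField ℂ K) (Q : Pl L) (T : Pl K) (S : ℕ → K → Prop) (N : ℕ)
    (ε a : ℝ) (w : Fin (n + 1) → K) : Prop where
  lc : ∃ h, h ≠ 0 ∧ S (N * (n + 2)) h ∧ (∀ P, Lies (inc L) P Q → 0 ≤ lw w N h P) ∧
    lw w N h T ≤ N * a
  el : ∃ r : ℕ, 0 < r ∧ ∀ U : Set (Pl K), U.Finite → (∀ P ∈ U, Lies (inc L) P Q) →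
    ∃ F, F ≠ 0 ∧ S (r * (n + 2)) F ∧ lw w r F T ≤ r * a ∧ ∀ P ∈ U, r * ε ≤ lw w r F P

end

/-- **ENGR**: the valuative engine over a place of a subfield -/
def ENGR : Prop := ∀ (n e V N : ℕ) (ε : ℝ), 0 < N → 0 < ε → ∃ δ : ℝ, 0 < δ ∧ ForN n fun K _ _ =>
  ∀ (L : IntermediateField ℂ K) (m : ℕ) (Q : Pl L) (T : Pl K) (S : ℕ → K → Prop) (y : Fin e → K)
    (a : ℝ), FF L m → n + 1 = m + e → Lies (inc L) T Q → Siz L V S y →
    (∀ w : Fin (n + 1) → K, AlgebraicIndependent ℂ w → (∀ i, w i ∈ L ∨ w i ∈ range y) →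
      Dat L Q T S N ε a w) → δ * T.ord (inc L Q.t) ≤ a

variable {K : Type} [Field K] [Algebra ℂ K] {n e : ℕ} {Λ Γ : BD K} {s₀ : Finset K}

theorem ov_of_lies (hK : FF K n) {P P' : Pl K} {Q : Pl (fld (mx s₀))} (h : Lies (inc _) P Q)
    (h' : Lies (inc _) P' Q) : Ov s₀ P P' := by
  obtain ⟨H, -, -, a⟩ := fld_down hK (smp_mx s₀)
  exact ((cle_pb_iff hK (cld_fld _) h h').2 (.refl H Q)).congr a

theorem ov_of_hor (hK : FF K n) {P' : Pl K} (h : Hor (fld (mx s₀)) P') (P : Pl K) : Ov s₀ P P' :=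
  h.cle hK (smp_mx s₀) P

/-- the hyperplane class of the base is principal along the places over `Q` -/
theorem base_prn {T : Pl K} {Q : Pl (fld (mx s₀))} (h : Lies (inc _) T Q) : ∃ f : K, f ≠ 0 ∧
    ∀ P, Lies (inc _) P Q ∨ Hor (fld (mx s₀)) P → mx s₀ P = -P.ord f := by
  by_cases z : Nz s₀
  swap
  · exact ⟨1, one_ne_zero, fun P _ => by simp [mx_of_not z]⟩
  obtain ⟨f, a, b, c⟩ := T.exists_mz z
  refine ⟨f, b, fun P hP => ?_⟩
  rw [mx_apply, P.mz_eq a b fun g x y => ?_, Int.cast_neg]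
  have m : g / f ∈ fld (mx s₀) := rts_le_fld _ (div_mem_rts x a)
  have k : ∀ R : Pl K, g / f ∈ R.ring ↔ R.ord f ≤ R.ord g := fun R => by
    rw [← P297Z.Pl.ord_nonneg_iff _ (div_ne_zero y b), P297Z.Pl.ord_div _ y b, sub_nonneg]
  have t : g / f ∈ T.ring := (k T).2 (by have := T.le_mz x y; omega)
  exact (k P).1 (hP.elim (fun l => (l ⟨_, m⟩).1 ((h ⟨_, m⟩).2 t)) fun l => l _ m)

/-- sections of least order at finitely many places over `Q` -/
theorem sect (hK : FF K (n + 1)) (h : Rel n Λ s₀ Γ) {T : Pl K} {Q : Pl (fld (mx s₀))}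
    (l : Lies (inc _) T Q) : ∃ r : ℕ, 0 < r ∧ ∀ U : Set (Pl K), U.Finite →
      (∀ P ∈ U, Lies (inc _) P Q) → ∃ g, Sc r Γ (fun P => Lies (inc _) P Q ∨ Hor (fld (mx s₀)) P) g ∧
        ∀ P ∈ U, r * Γ P = P.ord g := by
  obtain ⟨c, a⟩ := h.nef
  obtain ⟨Γ₀, c₀, b, d, u, v⟩ := h.ft.ex
  obtain ⟨k, hk⟩ := exists_nat_ge (c + |c₀|)
  have x : ∀ t : ℝ, 0 ≤ t → Nef (t • mx s₀) := fun t ht => (nef_mx s₀).smul ht
  have e : (k : ℝ) • mx s₀ - Γ - Γ₀ =
      c₀ • mx s₀ - Γ₀ + (c • mx s₀ - Γ + (k - c - c₀) • mx s₀) := by module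
  have y := a.add (x (k - c - c₀) (by linarith [le_abs_self c₀]))
  have s : Smp ((k : ℝ) • mx s₀ - Γ) := Ba.Fg.bpf hK h.pr.big ((h.ft.des.smul _).sub h.pr.des)
    (by simpa using sub_mem (h.ft.des.smul c₀).car u.car) b d (e ▸ u.add y) (e ▸ v.add_nef y)
    (by convert a.add (x (k - c) (by linarith [abs_nonneg c₀])) using 1; module)
  obtain ⟨r, s, r0, z, hr⟩ := Rl.smp_carQ s
    (CarQ.sub (by simpa using (carQ_mx s₀).qsmul k) h.pr.rat)
  obtain ⟨f, f0, hf⟩ := base_prn l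
  refine ⟨r, r0, fun U p q => ?_⟩
  obtain ⟨g, g1, g0, g2⟩ := exists_gen z p
  have o : ∀ P, Lies (inc _) P Q ∨ Hor (fld (mx s₀)) P →
      (P.ord (g / f ^ (r * k)) : ℝ) - r * Γ P = (dv g + mx s) P := fun P hP => by
    rw [← hr, ← dv_apply, dv_div g0 (pow_ne_zero _ f0), dv_pow]
    simp only [Pi.add_apply, Pi.sub_apply, Pi.smul_apply, smul_eq_mul, hf P hP, dv_apply]
    push_cast
    ring
  exact ⟨_, ⟨div_ne_zero g0 (pow_ne_zero _ f0), fun P hP => sub_nonneg.1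
    ((o P hP).symm ▸ (sec_of_span g1).resolve_left g0 P)⟩,
    fun P hP => (sub_eq_zero.1 ((o P (.inl (q P hP))).trans (g2 P hP))).symm⟩

/-- the form of a section in the coordinates `w` -/
theorem form_sc (hK : FF K (n + 1)) {L : IntermediateField ℂ K} {S : ℕ → K → Prop} {y : Fin e → K}
    (hF : Form n Λ L S y) (b : Bdy n Λ Γ) {w : Fin (n + 1) → K} (w1 : AlgebraicIndependent ℂ w)
    (w2 : ∀ i, w i ∈ L ∨ w i ∈ range y) {U : Pl K → Prop} (hU : ∀ P, Hor L P → U P) {r : ℕ} {g : K}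
    (h : Sc r Γ U g) : ∃ F, F ≠ 0 ∧ S (r * (n + 2)) F ∧
      ∀ P, lw w r F P = r * (cn K (n + 1) P + 1) - P.ord g := by
  obtain ⟨j, j0, hj⟩ := Cb.kap_cn hK w1
  have f0 : (g * j ^ r)⁻¹ ≠ 0 := inv_ne_zero (mul_ne_zero h.1 (pow_ne_zero _ j0))
  have o : ∀ P : Pl K, P.ord (g * j ^ r)⁻¹ + r * kap w P = r * cn K (n + 1) P - P.ord g :=
    fun P => by
      rw [← dv_apply, dv_inv, dv_mul h.1 (pow_ne_zero _ j0), dv_pow, hj]
      simp only [Pi.add_apply, Pi.neg_apply, Pi.smul_apply, smul_eq_mul, dv_apply]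
      ring
  refine ⟨_, f0, hF w w1 w2 _ r f0 fun P x y => ?_, fun P => by rw [lw, mul_add]; linarith [o P]⟩
  have p := h.2 P (hU P x)
  have q := mul_le_mul_of_nonneg_left (sub_nonpos.1 (b P y)) (Nat.cast_nonneg r)
  linarith [o P]

theorem phi_of_frq {q : ℕ} (hq : 0 < q) {x : ℝ} (h : x ∈ Frq q) (h0 : 0 ≤ x) (h1 : x ≤ 1) :
    x ∈ Phi q := by
  obtain ⟨j, rfl⟩ := h
  have p : (0 : ℝ) < q := Nat.cast_pos.2 hq
  have a : 0 ≤ j := by simpa using (le_div_iff₀ p).1 h0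
  have b : j ≤ q := by exact_mod_cast (div_le_one p).1 h1
  lift j to ℕ using a
  have c : j ≤ q := by exact_mod_cast b
  refine ⟨q - j, 1, Nat.sub_le _ _, one_pos, ?_⟩
  push_cast [c]
  field_simp
  ring

/-- the step **SMS** in the form in which it is proved -/
theorem ms_of (E : ENGR) (hv : LCV n) (eb : Lt EB n) (vb : Lt VB n) : MS n := fun ε q hε hq => by
  obtain ⟨N, N0, hN⟩ := hv q hq
  choose V hV using fun r : Fin n => beta extr ftm0 (eb r r.2) (vb r r.2) hε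
  choose d d0 hd using fun r : Fin n => E n (r + 1) (V r) N ε N0 hε
  obtain ⟨δ, δ0, hδ⟩ := P277Z.Gr.exists_pos_le_of_finite_aux d d0
  refine ⟨min δ ε, lt_min δ0 hε, fun K _ _ hK Λ Γ s₀ P Q h l cf el => ?_⟩
  have hL := ff_fld hK (mx s₀)
  rcases (dim_le hK (mx s₀)).eq_or_lt with t | t
  · have k := l.ord ⟨P.t, (fld_eq_top_iff hK).2 t ▸ trivial⟩
    have : P.ord (inc _ Q.t) = 1 :=
      Int.eq_one_of_mul_eq_one_right l.e_pos.le (k.symm.trans P.ord_t)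
    rw [this, Int.cast_one, mul_one]
    exact (min_le_right _ _).trans (el P (.refl _ _))
  have m0 : dim (mx s₀) ≠ 0 := fun z => Cb.no_pl (z ▸ hL) Q
  obtain ⟨r, hr⟩ : ∃ r : Fin n, n = dim (mx s₀) + r := ⟨⟨n - dim (mx s₀), by omega⟩, by simp; omega⟩
  obtain ⟨S, y, s, f⟩ := hV r n _ K Λ Γ s₀ hK hr hL h fun R hR => el R (ov_of_hor hK hR P)
  refine (mul_le_mul_of_nonneg_right ((min_le_left _ _).trans (hδ r))
    (Int.cast_nonneg l.e_pos.le)).trans (hd r K hK _ _ Q P S y _ hL (by omega) l s fun w a b => ?_)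
  have z : ∀ (k : ℕ) (g : K) (R : Pl K), (k : ℝ) * Γ R ≤ R.ord g →
      k * (cn K (n + 1) R + 1) - R.ord g ≤ k * ld (n + 1) Γ R := fun k g R x => by
    simp only [ld, dsc, Pi.sub_apply]
    linarith
  constructor
  · obtain ⟨g, x, u⟩ := hN K hK Λ Γ s₀ P h (fun k => l.not_trv k.trv)
      (fun R c d => phi_of_frq hq (cf R c d) (by rw [ld]; linarith [h.pr.bdy R c])
        (by linarith [el R d])) fun R d => hε.le.trans (el R d)
    obtain ⟨F, F0, F1, F2⟩ := form_sc hK f h.pr.bdy a b (fun R hR => ov_of_hor hK hR P) x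
    exact ⟨F, F0, F1, fun R hR => F2 R ▸ sub_nonneg.2 (u R (ov_of_lies hK l hR)),
      F2 P ▸ z N g P (x.2 P (.refl _ _))⟩
  · obtain ⟨k, k0, hk⟩ := sect hK h l
    refine ⟨k, k0, fun U c d => ?_⟩
    obtain ⟨g, x, u⟩ := hk U c d
    obtain ⟨F, F0, F1, F2⟩ := form_sc hK f h.pr.bdy a b (fun R => .inr) x
    refine ⟨F, F0, F1, F2 P ▸ z k g P (x.2 P (.inl l)), fun R hR => ?_⟩
    have := mul_le_mul_of_nonneg_left (el R (ov_of_lies hK l (d R hR))) (Nat.cast_nonneg k)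
    rw [F2, ← u R hR]
    simp only [ld, dsc, Pi.sub_apply] at this
    linarith

theorem Siz.sy {F E : Type} [Field F] [Field E] [Algebra F E] {V : ℕ} {S : ℕ → E → Prop}
    {y : Fin e → E} (h : Siz F V S y) : Mb.Sy F V S y where
  ind := h.ind
  mul := h.mul
  inv := h.inv
  pol := h.pol
  deg x c a b := by simpa using h.deg x (fun _ => c) a b
  rel x c k f a b d := let ⟨R, p, q, _, _, r⟩ := h.relO a b d; ⟨R, p, q, r⟩

theorem engr_of (E : Mb.ENGR) : ENGR := fun n e V N ε a b => by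
  obtain ⟨δ, c, h⟩ := E e V N (n + 2) ε a b
  refine ⟨δ, c, fun K _ _ hK L m Q T S y t hL d l s k => ?_⟩
  rcases m with _ | m
  · exact (Cb.no_pl hL Q).elim
  · exact h n m K L Q S y T t hK hL (by omega) s.sy l fun w u v => ⟨(k w u v).lc, (k w u v).el⟩

theorem sms_of (E : ENGR) : SMS := fun _ _ a _ _ b c _ _ _ _ => ms_of E a b c

/-- the step **SMS** from the engine of `EnSt` -/
theorem sms_of' (E : Mb.ENGR) : SMS := sms_of (engr_of E)

end Vale.Agent.P283B.Mo
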