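import Mathlib

/-!
# P283B, block MONO: towers of discs in a valued field (definitions and statements)

The levels are ordered downwards: the level `j` is generic over the levels `i > j`.
-/

open Set MvPolynomial

noncomputable section

namespace Vale.Agent.P283B.Mono

section defs

variable {Ω : Type} [Field Ω] {e : ℕ}

/-- the algebraic closure in `Ω` of the field generated by `E` and `S` -/
def acl (E : Subfield Ω) (S : Set Ω) : Subfield Ω :=
  (algebraicClosure (Subfield.closure ((E : Set Ω) ∪ S)) Ω).toSubfield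

/-- a valued field of residue characteristic zero; `E` has the same values -/
structure VS (w : AbsoluteValue Ω ℝ) (E : Subfield Ω) : Prop where
  na : IsNonarchimedean w
  nat : ∀ n : ℕ, n ≠ 0 → w n = 1
  ful : ∀ x : Ω, ∃ γ ∈ E, w γ = w x
  big : ∃ γ ∈ E, 1 < w γ

/-- the field below the level `j` -/
def Lv (E : Subfield Ω) (u : Fin e → Ω) (j : Fin e) : Subfield Ω := acl E (u '' {i | j < i})

/-- `x` is the generic point of the unit disc over `M` -/
def Gn (w : AbsoluteValue Ω ℝ) (M : Subfield Ω) (x : Ω) : Prop :=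
  w x ≤ 1 ∧ ∀ a ∈ M, 1 ≤ w (x - a)

/-- a generic tower -/
def Tw (w : AbsoluteValue Ω ℝ) (E : Subfield Ω) (u : Fin e → Ω) : Prop :=
  ∀ j, Gn w (Lv E u j) (u j)

/-- a triangular point with the radii `γ` -/
structure Tri (E : Subfield Ω) (u η γ : Fin e → Ω) : Prop where
  mem : ∀ j, γ j ∈ E
  ne : ∀ j, γ j ≠ 0
  cen : ∀ j, η j - γ j * u j ∈ Lv E u j

/-- the Jacobian of the polynomials `P` at `y` -/
def jc {k : Type} [Field k] [Algebra k Ω] (y : Fin e → Ω) (P : Fin e → MvPolynomial (Fin e) k) :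
    Ω := (Matrix.of fun i j => aeval y (pderiv i (P j))).det

end defs

/-- a statement for all valued fields -/
def ForV (A : ∀ (k Ω : Type) [Field k] [Field Ω] [Algebra k Ω], AbsoluteValue Ω ℝ → Subfield Ω →
    Prop) : Prop :=
  ∀ (k Ω : Type) [Field k] [Field Ω] [Algebra k Ω] [IsAlgClosed Ω] (w : AbsoluteValue Ω ℝ)
    (E : Subfield Ω), VS w E → (∀ a, algebraMap k Ω a ∈ E) → A k Ω w E

/-- **GAUSS**: the value of a polynomial at a generic tower -/
def GAUSS : Prop := ForV fun _ Ω _ _ _ w E => ∀ (e : ℕ) (u : Fin e → Ω), Tw w E u →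
  ∀ (p : MvPolynomial (Fin e) E) (m : Fin e →₀ ℕ), w (p.coeff m : E) ≤ w (aeval u p)

/-- **TW**: a point of Abhyankar is triangular for a generic tower -/
def TW : Prop := ForV fun _ Ω _ _ _ w E => ∀ (e : ℕ) (y : Fin e → Ω),
  (∀ j, ∃ g ∈ Subfield.closure ((Lv E y j : Set Ω) ∪ {y j}), Gn w (Lv E y j) g) →
  ∃ u γ, Tw w E u ∧ Tri E u y γ

/-- **IND**: triangular points are transcendence bases of the top field -/
def IND : Prop := ForV fun _ Ω _ _ _ w E => ∀ (e : ℕ) (u η γ : Fin e → Ω), Tw w E u →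
  Tri E u η γ → AlgebraicIndependent E η ∧ acl E (range η) = acl E (range u) ∧
    ∀ j, Lv E η j = Lv E u j

/-- **CHART**: the form `h (dy) ^ N` is lc at all triangular points and its log discrepancy at `y`
is at most `log a`; then the log form of a bounded chart `P` has a comparable log discrepancy -/
def CHART : Prop := ∀ e c : ℕ, ∃ C : ℕ, ForV fun k Ω _ _ _ w E => ∀ (K : Type) [Field K]
  [Algebra k K] (ι : K →ₐ[k] Ω) (u γ : Fin e → Ω) (y : Fin e → K) (h : K) (N : ℕ) (a : ℝ)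
  (R : MvPolynomial (Option (Fin e)) k), Algebra.IsAlgebraic (Algebra.adjoin k (range y)) K →
  Tw w E u → Tri E u (fun j => ι (y j)) γ → h ≠ 0 → R ≠ 0 → R.totalDegree ≤ c →
  aeval (fun o => Option.elim o h y) R = 0 → 0 < N → 0 ≤ a →
  (∀ (τ : K →ₐ[k] Ω) (γ' : Fin e → Ω), Tri E u (fun j => τ (y j)) γ' →
    w (τ h) * (∏ j, w (γ' j)) ^ N ≤ 1) →
  1 ≤ w (ι h) * (a * ∏ j, w (γ j)) ^ N →
  ∃ P : Fin e → MvPolynomial (Fin e) k, (∀ j, (P j).totalDegree ≤ C) ∧ jc y P ≠ 0 ∧
    ∏ j, w (ι (aeval y (P j))) ≤ a ^ C * w (ι (jc y P)) * ∏ j, w (γ j)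

/-- **LIP**: `F` satisfies an irreducible equation over the chart `P` of degree at most `ρ` in each
coordinate, the log derivations of the chart have the norm at most `b`; then over a monomial point
near the values of `P` there is an embedding at which `F` is not much smaller -/
def LIP : Prop := ForV fun k Ω _ _ _ w E => ∀ (e ρ : ℕ) (K : Type) [Field K] [Algebra k K]
  (ι : K →ₐ[k] Ω) (u γ : Fin e → Ω) (P : Fin e → K) (F : K) (b l : ℝ)
  (D : Fin e → Derivation k K K) (R : MvPolynomial (Option (Fin e)) k),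
  Algebra.IsAlgebraic (Algebra.adjoin k (range P)) K → AlgebraicIndependent k P → Tw w E u →
  (∀ j, γ j ∈ E ∧ γ j ≠ 0) → Irreducible R → (∀ j, R.degreeOf (some j) ≤ ρ) →
  aeval (fun o => Option.elim o F P) R = 0 → (∀ i j, D i (P j) = if i = j then 1 else 0) →
  1 ≤ b → 1 ≤ l → (∀ j f, w (ι (P j * D j f)) ≤ b * w (ι f)) →
  (∀ j, w (γ j) ≤ l * w (ι (P j)) ∧ w (ι (P j)) ≤ l * w (γ j)) →
  ∃ τ : K →ₐ[k] Ω, (∀ j, τ (P j) = γ j * u j) ∧ w (ι F) ≤ (b * l ^ 2) ^ (e * ρ) * w (τ F)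

/-- **RAM**: the ramification over a monomial point is bounded by the degree -/
def RAM : Prop := ForV fun k Ω _ _ _ w E => ∀ (e : ℕ) (K : Type) [Field K] [Algebra k K]
  (τ : K →ₐ[k] Ω) (u γ : Fin e → Ω) (P : Fin e → K) (x : K),
  FiniteDimensional (IntermediateField.adjoin k (range P)) K → Tw w E u →
  (∀ j, γ j ∈ E ∧ γ j ≠ 0) → (∀ j, τ (P j) = γ j * u j) → x ≠ 0 →
  ∃ (i : ℕ) (a : k) (z : Fin e → ℤ), 0 < i ∧
    i ≤ Module.finrank (IntermediateField.adjoin k (range P)) K ∧ a ≠ 0 ∧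
    w (τ x) ^ i = w (algebraMap k Ω a) * ∏ j, w (γ j) ^ z j

/-- **FINE**: finitely many embeddings extend a given point -/
def FINE : Prop := ∀ (k K Ω : Type) [Field k] [Field K] [Field Ω] [Algebra k K] [Algebra k Ω]
  (e : ℕ) (P : Fin e → K) (η : Fin e → Ω),
  FiniteDimensional (IntermediateField.adjoin k (range P)) K →
  {τ : K →ₐ[k] Ω | ∀ j, τ (P j) = η j}.Finite

/-- **DIR**: simultaneous approximation -/
def DIR : Prop := ∀ (e : ℕ) (η : ℝ), 0 < η → ∃ M : ℕ, ∀ x : Fin e → ℝ, ∃ (k : ℕ) (z : Fin e → ℤ),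
  0 < k ∧ k ≤ M ∧ ∀ j, |k * x j - z j| ≤ η

end Vale.Agent.P283B.Mono
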